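import Crest.Agent.N346.P1.Defs
import Crest.Agent.N346.An.Per
import Crest.Agent.N346.Basic2

/-!
Row 346, P1-U: the coefficients are uniformly bounded (`unif`), periodisation (`unif_comp`).
-/

set_option autoImplicit false

open MeasureTheory Filter Topology
open scoped ContDiff RealInnerProductSpace
open Crest.GeometryTopology.CoordMetric Crest.MathPhysics.ExteriorData
open Crest.Agent.N346.An (UB UB1 UC UPos)

noncomputable section

namespace Crest.Agent.N346.P1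

variable {n : ℕ} {ι : Type}

theorem Bdd.mono {B B' : ℕ → ℝ} {u : E n → ℝ} (h : Bdd B u) (hB : B ≤ B') : Bdd B' u :=
  ⟨h.1, fun k x => (h.2 k x).trans (hB k)⟩

/-- `Bdd B` families are `UC` -/
theorem uc_of_bdd {B : ℕ → ℝ} {u : ι → E n → ℝ} (h : ∀ i, Bdd B (u i)) : UC u :=
  ⟨fun i => (h i).1, fun k _ => ⟨B k, fun i x _ => (h i).2 k x⟩⟩

theorem ev_bdd {u : ι → E n → ℝ} (h : UC u) : ∀ᶠ B in atTop, ∀ i, Bdd B (u i) := by
  choose B hB using fun k => h.2 k 0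
  filter_upwards [eventually_ge_atTop B] with B' hB' i
  exact ⟨h.1 i, fun k x => (hB k i x le_rfl).trans (hB' k)⟩

/-- `UC` families are `Bdd B` -/
theorem bdd_of_uc {u : ι → E n → ℝ} (h : UC u) : ∃ B, ∀ i, Bdd B (u i) := (ev_bdd h).exists

theorem per_iff {L : ℝ} {u : E n → ℝ} : Per L u ↔ An.Per L u :=
  ⟨fun h x j => h j x, fun h j x => h x j⟩

/-- smooth and constant near infinity -/
theorem uc_far {w : E n → ℝ} (hw : ContDiff ℝ ∞ w) {c R : ℝ} (h : ∀ x, R < ‖x‖ → w x = c) :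
    UC fun _ : ι => w :=
  ((An.UC.of_compact (w := fun x => w x - c) (hw.sub contDiff_const)
    (Bs.hasCompactSupport_of_far fun y hy => sub_eq_zero.2 (h y hy))).add
    (An.UB.const' c)).congr fun _ _ => (sub_add_cancel _ _).symm

/-- negative powers of the Japanese bracket -/
theorem uc_jap {p : ℝ} (hp : p ≤ 0) : UC fun (_ : ι) (x : E n) => (1 + ‖x‖ ^ 2) ^ p := by
  have h0 : ∀ y : E n, 0 < 1 + ‖y‖ ^ 2 := fun y => by positivity
  have h1 : ∀ y : E n, 1 ≤ 1 + ‖y‖ ^ 2 := fun y => le_add_of_nonneg_right (sq_nonneg _)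
  have hid : UB (fun x : E n => ‖x‖) fun (_ : E n) (x : E n) => x :=
    An.UB1.id.ub fun M => ⟨M, fun _ _ hx => hx⟩
  have c1 : UB (fun x : E n => ‖x‖) fun (y : E n) (_ : E n) => (1 + ‖y‖ ^ 2)⁻¹ :=
    An.UB.const ⟨1, fun y => by
      rw [Real.norm_of_nonneg (inv_pos.2 (h0 y)).le]; exact inv_le_one_of_one_le₀ (h1 y)⟩
  have c2 : UB (fun x : E n => ‖x‖) fun (y : E n) (_ : E n) => (1 + ‖y‖ ^ 2)⁻¹ • y :=
    An.UB.const ⟨1, fun y => by
      rw [norm_smul, Real.norm_of_nonneg (inv_pos.2 (h0 y)).le, inv_mul_le_iff₀ (h0 y)]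
      nlinarith [sq_nonneg (‖y‖ - 1), norm_nonneg y]⟩
  have c3 := (c2.prodMk hid).comp_smooth (Φ := fun q : E n × E n => ⟪q.1, q.2⟫)
    (contDiff_fst.inner ℝ contDiff_snd)
  have c4 := hid.comp_smooth (Φ := fun x : E n => ‖x‖ ^ 2) (contDiff_norm_sq ℝ)
  have c5 : UB (fun x : E n => ‖x‖) fun (y : E n) (x : E n) =>
      (1 + ‖y + x‖ ^ 2) / (1 + ‖y‖ ^ 2) := by
    refine (((An.UB.const' 1).add (c3.const_mul 2)).add (c1.mul c4)).congr fun y x => ?_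
    have := (h0 y).ne'
    rw [norm_add_sq_real, real_inner_smul_left]
    field_simp
    ring
  have c6 : UPos (fun x : E n => ‖x‖) fun (y : E n) (x : E n) =>
      (1 + ‖y + x‖ ^ 2) / (1 + ‖y‖ ^ 2) := by
    refine ⟨fun y x => div_pos (h0 _) (h0 _), fun M => ⟨(2 * (1 + M ^ 2))⁻¹, by positivity,
      fun y x hx => ?_⟩⟩
    rw [le_div_iff₀ (h0 y), inv_mul_le_iff₀ (by positivity)]
    have a1 : ‖y‖ ≤ ‖y + x‖ + ‖x‖ := by simpa using norm_sub_le (y + x) x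
    have a2 := pow_le_pow_left₀ (norm_nonneg _) a1 2
    have a3 := pow_le_pow_left₀ (norm_nonneg _) hx 2
    nlinarith [sq_nonneg (‖y + x‖ - ‖x‖), mul_nonneg (sq_nonneg M) (sq_nonneg ‖y + x‖)]
  have c7 : UB (fun x : E n => ‖x‖) fun (y : E n) (_ : E n) => (1 + ‖y‖ ^ 2) ^ p :=
    An.UB.const ⟨1, fun y => by
      rw [Real.norm_of_nonneg (Real.rpow_nonneg (h0 y).le _)]
      exact Real.rpow_le_one_of_one_le_of_nonpos (h1 y) hp⟩
  have c8 : UB (fun x : E n => ‖x‖) fun (y : E n) (x : E n) => (1 + ‖y + x‖ ^ 2) ^ p := by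
    refine (c7.mul (c5.rpow c6 p)).congr fun y x => ?_
    rw [← Real.mul_rpow (h0 y).le (c6.1 y x).le, mul_div_cancel₀ _ (h0 y).ne']
  refine An.UC.single (by simpa using c8.1 0) fun k => ?_
  obtain ⟨C, hC⟩ := c8.2 k 0
  refine ⟨C, fun y => ?_⟩
  have := hC y 0 (by simp)
  rwa [iteratedFDeriv_comp_add_left (f := fun x : E n => (1 + ‖x‖ ^ 2) ^ p), add_zero] at this

theorem uc_eta : UC fun (L : {L : ℝ // 1 ≤ L}) => (eta L : E n → ℝ) := by
  refine ⟨fun L => Bs.contDiff_eta _, fun k _ => ?_⟩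
  obtain ⟨C, hC0, hC⟩ := Bs.exists_eta_bound n k
  exact ⟨C, fun L x _ => (hC L (one_pos.trans_le L.2) x).trans
    (div_le_self hC0 (one_le_pow₀ L.2))⟩

theorem contDiff_cut (a b : ℝ) : ContDiff ℝ ∞ (cut a b) :=
  Real.smoothTransition.contDiff.comp ((contDiff_id.sub contDiff_const).div_const _)

theorem cut_mem (a b t : ℝ) : cut a b t ∈ Set.Icc (0 : ℝ) 1 :=
  ⟨Real.smoothTransition.nonneg _, Real.smoothTransition.le_one _⟩

theorem one_sub_mem {t : ℝ} (h : t ∈ Set.Icc (0 : ℝ) 1) : 1 - t ∈ Set.Icc (0 : ℝ) 1 :=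
  ⟨by linarith [h.2], by linarith [h.1]⟩

theorem cut_one {a b t : ℝ} (hab : a < b) (h : b ≤ t) : cut a b t = 1 :=
  Real.smoothTransition.one_of_one_le ((one_le_div (sub_pos.2 hab)).2 (by linarith))

theorem cut_zero {a b t : ℝ} (hab : a < b) (h : t ≤ a) : cut a b t = 0 :=
  Real.smoothTransition.zero_of_nonpos
    (div_nonpos_of_nonpos_of_nonneg (sub_nonpos.2 h) (sub_pos.2 hab).le)

theorem unif : UnifStmt := by
  intro n hn S hS
  have hG := hS.good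
  have hR : 0 < S.R0 := one_pos.trans_le hG.R0_ge
  have hn3 : (3 : ℝ) ≤ n := by exact_mod_cast hn
  have hcut : ∀ a b : ℝ, a < b → b ≤ 2 → UC fun (_ : Unit) x => cut a b (S.s x) :=
    fun a b hab hb => uc_far ((contDiff_cut a b).comp hG.s_smooth) (c := 1) (R := S.R0)
      fun x hx => cut_one hab (hb.trans (hG.s_far x hx.le))
  have g1 : ∀ i j, UC fun (_ : Unit) x => S.g x i j := fun i j =>
    An.UC.single (Bs.contDiff_g hG.riem i j) fun k => (hG.g_bdd k).imp fun _ h => h i j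
  have g2 : ∀ i j, UC fun (_ : Unit) x => S.K x i j := fun i j =>
    uc_far (hG.K_smooth i j) (c := 0) (R := S.R0) fun x hx => by simp [hG.K_far x hx.le]
  have g3 : ∀ i, UC fun (_ : Unit) x => eta S.R0 x * S.EE x i := fun i =>
    uc_far ((Bs.contDiff_eta _).mul (hG.EE_smooth i)) (c := 0) (R := 2 * S.R0) fun x hx => by
      simp [Bs.eta_eq_zero hR hx.le]
  have g4 := hcut (1 / 4) (1 / 2) (by norm_num) (by norm_num)
  have g5 := (An.UB.const' 1).sub (hcut _ _ hS.rab hS.rb_lt.le)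
  have g6 := hcut 1 _ hS.ra_gt (hS.rab.trans hS.rb_lt).le
  have g7 : UC fun _ : Unit => (eta S.R0 : E n → ℝ) := uc_eta.reindex fun _ => ⟨_, hG.R0_ge⟩
  have g8 : UC fun _ : Unit => S.cw := (uc_jap (by linarith)).const_mul S.C0
  have g9 : UC fun _ : Unit => S.mw := (uc_jap (by linarith [hG.e0_pos])).const_mul S.c1
  have g10 := (An.UB.const' 1).sub (uc_eta (n := n))
  have : ∀ᶠ B in atTop, ∀ L ≥ (1 : ℝ), ∀ u ∈ (S.coef fun x => 1 - eta L x).comps, Bdd B u := by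
    filter_upwards [eventually_all.2 fun i => eventually_all.2 fun j => ev_bdd (g1 i j),
      eventually_all.2 fun i => eventually_all.2 fun j => ev_bdd (g2 i j),
      eventually_all.2 fun i => ev_bdd (g3 i), ev_bdd g4, ev_bdd g5, ev_bdd g6, ev_bdd g7,
      ev_bdd g8, ev_bdd g9, ev_bdd g10] with B b1 b2 b3 b4 b5 b6 b7 b8 b9 b10 L hL u hu
    rcases hu with ⟨i, j, rfl⟩ | ⟨i, j, rfl⟩ | ⟨i, rfl⟩ | rfl | rfl | rfl | rfl | rfl | rfl | rfl
    exacts [b1 i j (), b2 i j (), b3 i (), b4 (), b5 (), b6 (), b7 (), b8 (), b9 (), b10 ⟨L, hL⟩]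
  obtain ⟨B, hB⟩ := this.exists
  have he : ∀ (R : ℝ) (x : E n), eta R x ∈ Set.Icc (0 : ℝ) 1 := fun R x =>
    ⟨Bs.eta_nonneg R x, Bs.eta_le_one R x⟩
  refine ⟨S.C⁻¹, B, fun L hL => ⟨inv_pos.2 (one_pos.trans_le hG.C_ge),
    inv_le_one_of_one_le₀ hG.C_ge, hG.riem, hG.g_lo, hG.K_symm, hB L hL, fun x => cut_mem _ _ _,
    fun x => one_sub_mem (cut_mem _ _ _), fun x => cut_mem _ _ _, he _,
    fun x => one_sub_mem (he _ _), fun x => ?_, fun x => ?_⟩⟩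
  · refine le_trans ?_ (hS.C0_big x 0 (by simp [quadForm]))
    have : 0 ≤ (n : ℝ) - 1 := by linarith
    positivity
  · exact mul_nonneg hS.c1_pos.le (Real.rpow_nonneg (by positivity) _)

theorem Coef.comps_comp {c : Coef n} {π : E n → E n} {u : E n → ℝ} (hu : u ∈ (c.comp π).comps) :
    ∃ v ∈ c.comps, u = fun x => v (π x) := by
  rcases hu with ⟨i, j, rfl⟩ | ⟨i, j, rfl⟩ | ⟨i, rfl⟩ | rfl | rfl | rfl | rfl | rfl | rfl | rfl
  · exact ⟨_, Or.inl ⟨i, j, rfl⟩, rfl⟩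
  · exact ⟨_, Or.inr (Or.inl ⟨i, j, rfl⟩), rfl⟩
  · exact ⟨_, Or.inr (Or.inr (Or.inl ⟨i, rfl⟩)), rfl⟩
  all_goals exact ⟨_, by simp [Coef.comps], rfl⟩

/-- periodisation of uniformly bounded coefficients -/
theorem unif_comp (lam : ℝ) (B : ℕ → ℝ) : ∃ B' : ℕ → ℝ, ∀ c : Coef n, c.Unif lam B →
    ∃ cs : ℕ → Coef n, (∀ k, (cs k).Unif lam B' ∧ ∀ u ∈ (cs k).comps, Per (8 * (k + 1 : ℝ)) u) ∧
      ∀ (k : ℕ) (x : E n), ‖x‖ < k → (cs k).g x = c.g x ∧ (cs k).K x = c.K x ∧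
        (cs k).EE x = c.EE x ∧ (cs k).a1 x = c.a1 x ∧ (cs k).a2 x = c.a2 x ∧
        (cs k).b1 x = c.b1 x ∧ (cs k).b2 x = c.b2 x ∧ (cs k).cw x = c.cw x ∧
        (cs k).mw x = c.mw x ∧ (cs k).an x = c.an x := by
  obtain ⟨π, hπ, hπ'⟩ := An.per n
  have h1 : UC fun p : {u : E n → ℝ // Bdd B u} × ℕ => p.1.1 := uc_of_bdd fun p => p.1.2
  obtain ⟨B', hB'⟩ := bdd_of_uc
    (h1.comp (hπ.reindex Prod.snd) fun _ => ⟨0, fun _ _ _ => le_rfl⟩)
  refine ⟨B', fun c hc => ⟨fun k => c.comp (π k), fun k => ⟨⟨hc.lam_pos, hc.lam_le,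
    ⟨isOpen_univ, fun i j => ((Bs.contDiff_g hc.riem i j).comp (hπ.1 k)).contDiffOn,
      fun x _ => hc.riem.posDef _ trivial⟩, fun x => hc.g_lo (π k x), fun x => hc.K_symm _,
    fun u hu => ?_, fun x => hc.a1_mem _, fun x => hc.a2_mem _, fun x => hc.b1_mem _,
    fun x => hc.b2_mem _, fun x => hc.an_mem _, fun x => hc.cw_nonneg _,
    fun x => hc.mw_nonneg _⟩, fun u hu => ?_⟩, fun k x hx => ?_⟩⟩
  · obtain ⟨v, hv, rfl⟩ := Coef.comps_comp hu
    exact hB' (⟨v, hc.bdd v hv⟩, k)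
  · obtain ⟨v, -, rfl⟩ := Coef.comps_comp hu
    exact per_iff.2 ((hπ' k).1.comp v)
  · simp [Coef.comp, (hπ' k).2 x (by linarith)]

end Crest.Agent.N346.P1

end
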