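import Crest.Agent.N346.P1.Defs
import Crest.Agent.N346.Assembly

/-! Row 346, Part 1: assembly of `P1Stmt` from the sub-parts. -/

set_option autoImplicit false

open MeasureTheory Filter Topology
open scoped ContDiff
open Crest.GeometryTopology.CoordMetric Crest.MathPhysics.ExteriorData

noncomputable section

namespace Crest.Agent.N346.P1

theorem p1_of (hS : SetupStmt) (hU : UnifStmt) (hEx : ExStmt) (hEst : EstStmt) (hLim : LimStmt)
    (hEn : EnStmt) (hOut : OutStmt) : P1Stmt := by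
  intro n hn m A Q g K EE ψ s R0 C c0 e0 θ0 r1 hG hA η hη
  obtain ⟨S, hOK, hm, hA', hQ, hE, hθ⟩ := hS n hn m A Q g K EE ψ s R0 C c0 e0 θ0 r1 hG
    (min (η / 2) 1) (lt_min (by linarith) one_pos) (min_le_right _ _)
  obtain ⟨lam, B, hUn⟩ := hU n hn S hOK
  obtain ⟨N1, e1, he1, hex⟩ := hEx n hn S.θ S.t0 S.t1 lam B hOK.par_ok
  obtain ⟨N, e2, he2, hest⟩ := hEst n hn S hOK
  have hε : 0 < ((n : ℝ) - 2) * unitSphereArea n * η / 2 := by
    have h3 : (3 : ℝ) ≤ n := by exact_mod_cast hn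
    have := unitSphereArea_pos (n := n) (by omega)
    have h4 : 0 < (n : ℝ) - 2 := by linarith
    positivity
  obtain ⟨e3, he3, hen⟩ := hEn n hn S hOK _ hε N
  have hθη : 2 * S.θ ≤ η := by rw [hθ]; have := min_le_left (η / 2) 1; linarith
  obtain ⟨N', hout⟩ := hOut n hn S hOK (hA' ▸ hA) η hη hθη N
  refine ⟨N', fun ℓ0 => ?_⟩
  obtain ⟨e4, he4, hout'⟩ := hout ℓ0
  set e : ℝ := min (min (min e1 e2) (min e3 e4)) (1 / 2) with he
  have he0 : 0 < e := by positivity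
  have h1 : e ≤ e1 := (min_le_left _ _).trans ((min_le_left _ _).trans (min_le_left _ _))
  have h2 : e ≤ e2 := (min_le_left _ _).trans ((min_le_left _ _).trans (min_le_right _ _))
  have h3 : e ≤ e3 := (min_le_left _ _).trans ((min_le_right _ _).trans (min_le_left _ _))
  have h4 : e ≤ e4 := (min_le_left _ _).trans ((min_le_right _ _).trans (min_le_right _ _))
  have h5 : e < 1 := lt_of_le_of_lt (min_le_right _ _) (by norm_num)
  have hM : (0 : ℝ) ≤ (e ^ N1)⁻¹ := by positivity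
  have hz : (0 : ℝ) ≤ (e ^ N)⁻¹ := by positivity
  obtain ⟨B', hB'⟩ := hex e he0 h1 _ le_rfl _ hz
  obtain ⟨f, z, hsol, hf, hzb, hEs⟩ := hLim n hn S hOK e (e ^ N1)⁻¹ (e ^ N)⁻¹ (e ^ N)⁻¹
    (max 1 (e ^ N)⁻¹) B' he0 h5 fun L hL => by
      obtain ⟨f, z, hs, hf, hz'⟩ := hB' _ (hUn L ((le_max_left _ _).trans hL))
      exact ⟨f, z, hs, hf, hz', hest e he0 h2 _ hM _ hz L ((le_max_right _ _).trans hL) B' f z hs
        hf hz'⟩
  obtain ⟨hi, hfl⟩ := hen e he0 h3 _ hM _ hz B' f z hsol hf hzb hEs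
  obtain ⟨ℓ, hℓ, g', d, U, hN⟩ := hout' e he0 h4 _ _ le_rfl B' f z hsol hf hzb hEs hi hfl
  rw [hm, hA', hQ, hE] at hN
  exact ⟨ℓ, hℓ, g', d, U, hN⟩

end Crest.Agent.N346.P1

end
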