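import Crest.Agent.N346.P1.OutA

/-!
Row 346, Part 1.8 (helper90), file C: pointwise facts about a solution of the limit system and the
curvature of the cut metric.
-/

set_option autoImplicit false

open scoped ContDiff Topology
open Filter Set Metric
open Crest.GeometryTopology.CoordMetric Crest.MathPhysics.ExteriorData
open Crest.Agent.R202.Tens Crest.Agent.R247.Bo84 Crest.Agent.N346.Id

noncomputable section

namespace Crest.Agent.N346.P1.Out

variable {n : ℕ}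

theorem cut_smooth (a b : ℝ) : ContDiff ℝ ∞ (cut a b) :=
  Real.smoothTransition.contDiff.comp ((contDiff_id.sub contDiff_const).div_const _)

theorem cut_nonneg (a b t : ℝ) : 0 ≤ cut a b t := Real.smoothTransition.nonneg _

theorem cut_le_one (a b t : ℝ) : cut a b t ≤ 1 := Real.smoothTransition.le_one _

theorem cut_eq_one {a b t : ℝ} (hab : a < b) (h : b ≤ t) : cut a b t = 1 :=
  Real.smoothTransition.one_of_one_le ((one_le_div (by linarith)).2 (by linarith))

theorem cut_eq_zero {a b t : ℝ} (hab : a < b) (h : t ≤ a) : cut a b t = 0 :=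
  Real.smoothTransition.zero_of_nonpos (div_nonpos_of_nonpos_of_nonneg (by linarith) (by linarith))

/-- the neck profile -/
def be (t0 t : ℝ) : ℝ := cut ((t0 / 2) ^ 2) (t0 ^ 2) (t ^ 2)

theorem be_smooth (t0 : ℝ) : ContDiff ℝ ∞ (be t0) := (cut_smooth _ _).comp (contDiff_id.pow 2)

theorem be_one {t0 t : ℝ} (h0 : 0 < t0) (h : t0 ≤ |t|) : be t0 t = 1 :=
  cut_eq_one (by nlinarith) (by rw [← sq_abs t]; gcongr)

theorem be_zero {t0 t : ℝ} (h0 : 0 < t0) (h : |t| ≤ t0 / 2) : be t0 t = 0 :=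
  cut_eq_zero (by nlinarith) (by rw [← sq_abs t]; gcongr)

theorem deriv_be_zero {t0 t : ℝ} (h0 : 0 < t0) (h : |t| ≤ t0 / 2) : deriv (be t0) t = 0 :=
  IsLocalMin.deriv_eq_zero (.of_forall fun s => by rw [be_zero h0 h]; exact cut_nonneg _ _ _)

theorem exists_be_bound {t0 : ℝ} (h0 : 0 < t0) : ∃ c : ℝ, 0 < c ∧ ∀ t, |deriv (be t0) t| ≤ c := by
  have h1 : HasCompactSupport (deriv (be t0)) :=
    HasCompactSupport.intro (isCompact_Icc (a := -t0) (b := t0)) fun t ht => by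
      have h2 : t0 ≤ |t| := by
        rw [mem_Icc, ← abs_le, not_le] at ht
        exact ht.le
      exact IsLocalMax.deriv_eq_zero (.of_forall fun s => by
        rw [be_one h0 h2]; exact cut_le_one _ _ _)
  obtain ⟨c, hc⟩ := ((be_smooth t0).continuous_deriv (by simp)).bounded_above_of_compact_support h1
  exact ⟨c + 1, by linarith [norm_nonneg (deriv (be t0) 0), hc 0], fun t => by
    linarith [hc t, Real.norm_eq_abs (deriv (be t0) t)]⟩

/-- `R - 2 Δ z - α |dz|²`. -/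
def FF (g : MetricField n) (z : E n → ℝ) (x : E n) : ℝ :=
  scalarCurv g x - 2 * laplaceBeltrami g z x - al n * gam g z z x

theorem FF_congr {g g' : MetricField n} {x : E n} (h : g =ᶠ[𝓝 x] g') (z : E n → ℝ) :
    FF g z x = FF g' z x := by
  rw [FF, FF, scalarCurv_congr h, lap_congr_metric h, gam, gam, inverseField, inverseField,
    h.self_of_nhds]

theorem gb_cut {R : ℝ} (hR : 0 < R) (g : MetricField n) (φ f : E n → ℝ) {x : E n} (hx : ‖x‖ < R) :
    gb g φ (fun y => eta R y * f y) =ᶠ[𝓝 x] gb g φ f := by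
  have ho : IsOpen {y : E n | ‖y‖ < R} := isOpen_lt continuous_norm continuous_const
  filter_upwards [ho.mem_nhds hx] with y hy
  have h1 : (fun y => eta R y * f y) =ᶠ[𝓝 y] f := by
    filter_upwards [ho.mem_nhds hy] with v hv
    rw [Bs.eta_eq_one hR (le_of_lt hv), one_mul]
  simp only [gb, XX, Bs.pd_congr h1]

theorem gb_cut_far {R : ℝ} (hR : 0 < R) (g : MetricField n) (φ f : E n → ℝ) {x : E n}
    (hx : 2 * R < ‖x‖) : gb g φ (fun y => eta R y * f y) x = g x := by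
  have h1 := Bs.pd_of_far (u := fun y => eta R y * f y) (c := 0) (R := 2 * R)
    (fun y hy => by rw [Bs.eta_eq_zero hR hy, zero_mul]) hx
  ext i j
  simp [gb, XX, h1]

theorem abs_al_le (hn : 3 ≤ n) : |al n| ≤ 1 := by
  have h3 : (3 : ℝ) ≤ n := by exact_mod_cast hn
  rw [al, abs_of_nonneg (div_nonneg (by linarith) (by linarith)), div_le_one (by linarith)]
  linarith

/-- the hypotheses of `OutStmt`, bundled. -/
structure Ctx (S : Setup n) (e M z3 Λ : ℝ) (B : ℕ → ℝ) (f z : E n → ℝ) : Prop where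
  hn : 3 ≤ n
  ok : S.OK
  e_pos : 0 < e
  e_lt : e < 1
  Λ_ge : 1 ≤ Λ
  Λ_le : Λ ≤ z3
  sol : S.Sol e M z3 (fun _ => 0) f z
  bf : Bdd B f
  bz : Bdd B z
  est : S.Est e M z3 Λ (fun _ => 0) f z

/-- the warping factor of the limit solution -/
abbrev ph0 (S : Setup n) (e M z3 : ℝ) (f z : E n → ℝ) : E n → ℝ :=
  phi (S.par e M z3) (S.coef fun _ => 0) 1 f z

namespace Ctx

variable {S : Setup n} {e M z3 Λ : ℝ} {B : ℕ → ℝ} {f z : E n → ℝ}

local notation "φ" => ph0 S e M z3 f z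
local notation "P" => S.par e M z3

theorem gt_one (S : Setup n) (an : E n → ℝ) : (S.coef an).gt 1 = S.g := by
  funext x
  simp [Coef.gt, Setup.coef]

theorem phi_eq (x : E n) : φ x = e ^ 2 + (1 - e ^ 2) *
    (cut (1 / 4) (1 / 2) (S.s x) * (1 - (1 - cut S.ra S.rb (S.s x)) *
      (1 - cut (-S.t1) (-S.t1 / 2) (e ^ 3 * f x)))) * cut (-S.θ / 2) (-S.θ / 4) (z x) := by
  simp only [ph0, phi, Par.phiF, Par.chi, Par.Ph, Par.δ, Par.τ, Setup.par, Setup.coef]
  ring

theorem phi_smooth (h : Ctx S e M z3 Λ B f z) : ContDiff ℝ ∞ φ := by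
  have hs := h.ok.good.s_smooth
  rw [funext phi_eq]
  exact contDiff_const.add ((contDiff_const.mul (((cut_smooth _ _).comp hs).mul
    (contDiff_const.sub ((contDiff_const.sub ((cut_smooth _ _).comp hs)).mul
      (contDiff_const.sub ((cut_smooth _ _).comp (contDiff_const.mul h.bf.1))))))).mul
    ((cut_smooth _ _).comp h.bz.1))

theorem phi_ge (h : Ctx S e M z3 Λ B f z) (x : E n) : e ^ 2 ≤ φ x := by
  have h1 : 0 ≤ 1 - e ^ 2 := by nlinarith [h.e_pos, h.e_lt]
  have h2 : 0 ≤ 1 - (1 - cut S.ra S.rb (S.s x)) * (1 - cut (-S.t1) (-S.t1 / 2) (e ^ 3 * f x)) := by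
    have := mul_le_one₀ (a := 1 - cut S.ra S.rb (S.s x))
      (b := 1 - cut (-S.t1) (-S.t1 / 2) (e ^ 3 * f x)) (by linarith [cut_nonneg S.ra S.rb (S.s x)])
      (by linarith [cut_le_one (-S.t1) (-S.t1 / 2) (e ^ 3 * f x)])
      (by linarith [cut_nonneg (-S.t1) (-S.t1 / 2) (e ^ 3 * f x)])
    linarith
  rw [phi_eq]
  have := mul_nonneg (mul_nonneg h1 (mul_nonneg (cut_nonneg (1 / 4) (1 / 2) (S.s x)) h2))
    (cut_nonneg (-S.θ / 2) (-S.θ / 4) (z x))
  linarith

theorem phi_far (h : Ctx S e M z3 Λ B f z) {x : E n} (h1 : Λ ≤ ‖x‖) (h2 : S.R0 ≤ ‖x‖) :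
    φ x = 1 := by
  have hs := h.ok.good.s_far x h2
  have hθ : 0 < S.θ := h.ok.par_ok.θ_pos
  rw [phi_eq, cut_eq_one (by norm_num) (by linarith : 1 / 2 ≤ S.s x),
    cut_eq_one h.ok.rab (by linarith [h.ok.rb_lt]),
    cut_eq_one (by linarith) (h.est.far_z5 x h1)]
  ring

theorem jd (h : Ctx S e M z3 Λ B f z) {f' : E n → ℝ} (hf : ContDiff ℝ ∞ f') :
    Jd S.g φ f' univ :=
  ⟨h.ok.good.riem, h.phi_smooth.contDiffOn, hf.contDiffOn,
    fun x _ => (pow_pos h.e_pos 2).trans_le (h.phi_ge x)⟩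

theorem mw_pos (h : Ctx S e M z3 Λ B f z) (x : E n) : 0 < S.mw x := by
  have := h.ok.c1_pos
  rw [Setup.mw]
  positivity

theorem ra_lt (h : Ctx S e M z3 Λ B f z) {x : E n} (hx : |e ^ 3 * f x| < S.t0) : S.ra < S.s x := by
  by_contra h1
  have h2 := h.est.inner x (not_lt.1 h1)
  have h3 : 4 * S.t0 ≤ S.t1 := h.ok.par_ok.t01
  have h4 : 0 < S.t0 := h.ok.par_ok.t0_pos
  linarith [(abs_lt.1 hx).1]

/-- outside the penalised region the conformal operator is bounded below. -/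
theorem FF_ge (h : Ctx S e M z3 Λ B f z) {x : E n} (hx : |e ^ 3 * f x| < S.t0) :
    2 * S.mw x ≤ FF (gb S.g φ f) z x ∧
      (e ^ 3 * f x) ^ 2 + 2 * eSq (gb S.g φ f) S.EE x ≤ FF (gb S.g φ f) z x := by
  have hd := h.jd h.bf.1
  have hθ : 0 < S.θ := h.ok.par_ok.θ_pos
  have ht0 : 0 < S.t0 := h.ok.par_ok.t0_pos
  have h1 := h.sol.conf x
  have hz : z x ≤ z3 := by linarith [Real.add_one_le_exp (z x), h.est.z_hi x, h.Λ_le]
  have hvt : (P).vt (z x) = 0 := by
    simp only [Par.vt, Setup.par]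
    rw [cut_eq_one (by linarith) (by linarith [h.est.z_lo x]), cut_eq_zero (by linarith) hz]
    ring
  have hdd : (P).dd ((S.coef fun _ => 0).b1 x) ((S.coef fun _ => 0).b2 x) ((P).τ * f x) = 0 := by
    simp only [Par.dd, Par.τ, Setup.par, Setup.coef]
    rw [cut_eq_one h.ok.ra_gt (h.ra_lt hx).le, cut_eq_zero (by nlinarith)
      (by rw [← sq_abs (e ^ 3 * f x)]; gcongr)]
    ring
  have hcw : 0 ≤ S.cw x := by
    refine le_trans ?_ (h.ok.C0_big x 0 (by simp [quadForm]))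
    have h3 : (3 : ℝ) ≤ n := by exact_mod_cast h.hn
    have : (0:ℝ) ≤ (n : ℝ) - 1 := by linarith
    positivity
  have hsz : 0 ≤ (P).sz (z x) := by
    simp only [Par.sz]
    linarith [cut_le_one (-(P).θ) (-3 * (P).θ / 4) (z x)]
  have hT : TT P (S.coef fun _ => 0) 1 f z x ≤ FF (gb S.g φ f) z x := by
    rw [GG, hvt, hdd, gbar, gt_one] at h1
    have h2 : (S.coef fun _ => 0).an x = 0 := rfl
    have h3 : (S.coef fun _ => 0).cw x = S.cw x := rfl
    rw [h2, h3] at h1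
    rw [FF]
    nlinarith [mul_nonneg hsz hcw]
  have hp : 0 ≤ (P).τ * pp S.g φ f x :=
    mul_nonneg (pow_pos h.e_pos 3).le (hd.pp_nonneg (mem_univ x))
  have hE := eSq_nonneg hd.riemb (mem_univ x) (S.coef fun _ => 0).EE
  have hm := h.mw_pos x
  rw [TT, gbar, gt_one] at hT
  have h4 : (S.coef fun _ => 0).mw x = S.mw x := rfl
  have h5 : (P).τ = e ^ 3 := rfl
  rw [h4] at hT
  refine ⟨by nlinarith [sq_nonneg ((P).τ * f x)], ?_⟩
  rw [← h5]
  rcases le_total ‖x‖ S.R0 with hr | hr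
  · have h6 : eSq (gb S.g φ f) (S.coef fun _ => 0).EE x = eSq (gb S.g φ f) S.EE x := by
      simp only [eSq, vecNormSq, Setup.coef,
        Bs.eta_eq_one (by linarith [h.ok.good.R0_ge] : 0 < S.R0) hr, one_mul]
    linarith
  · linarith [h.ok.E_far x hr, hd.eSq_gb_le (mem_univ x) S.EE]

/-- the far region: cutting `f` off at a large radius keeps the conformal operator positive. -/
theorem far (h : Ctx S e M z3 Λ B f z) (R1 : ℝ) : ∃ R : ℝ, R1 ≤ R ∧ 1 ≤ R ∧ S.R0 ≤ R ∧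
    ∀ x, R ≤ ‖x‖ → Id.sq S.g φ (fun y => eta R y * f y) x ≤ 1 ∧ (|e ^ 3 * f x| < S.t0 →
      2 * eSq (gb S.g φ fun y => eta R y * f y) S.EE x
        ≤ FF (gb S.g φ fun y => eta R y * f y) z x) := by
  have hG := h.ok.good
  have hC := hG.C_ge
  have h3 : (3 : ℝ) ≤ n := by exact_mod_cast h.hn
  set Bz := max (B 1) (B 2) with hBz
  have hBz0 : 0 ≤ Bz := ((norm_nonneg _).trans (h.bz.2 1 0)).trans (le_max_left _ _)
  obtain ⟨K, hK, hfar⟩ := far_est n S.C |S.C0| ((1 + 3 * S.C) * Bz) hC (abs_nonneg _)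
    (by positivity)
  obtain ⟨c, hc, hcut⟩ := exists_cut_bound n
  set ρ := min 1 (min (S.c1 / (2 * K + 1)) (1 / S.C)) with hρ
  have hc1 := h.ok.c1_pos
  have hρ0 : 0 < ρ := by positivity
  have hρ1 : ρ ≤ 1 := min_le_left _ _
  have hρ2 : ρ * (2 * K + 1) ≤ S.c1 :=
    (le_div_iff₀ (by positivity)).1 ((min_le_right _ _).trans (min_le_left _ _))
  have hρ3 : ρ * S.C ≤ 1 :=
    (le_div_iff₀ (by positivity)).1 ((min_le_right _ _).trans (min_le_right _ _))
  have hexp : ExpD f := ⟨e ^ 2, Λ * Real.exp (e ^ 2 * Λ), Λ, pow_pos h.e_pos 2,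
    by have := h.Λ_ge; positivity, fun x hx => by
      refine (h.est.far_f x hx).trans (le_of_eq ?_)
      rw [mul_assoc, ← Real.exp_add]
      congr 2
      ring⟩
  obtain ⟨R2, hR2⟩ := decay_two h.bf hexp (((n : ℝ) + S.e0) / 2) (ρ / ((1 + 3 * S.C) * c))
    (by positivity)
  refine ⟨max (max R1 R2) (max Λ S.R0 + 1), (le_max_left _ _).trans (le_max_left _ _),
    le_trans (by linarith [le_max_left Λ S.R0, h.Λ_ge]) (le_max_right _ _),
    le_trans (by linarith [le_max_right Λ S.R0]) (le_max_right _ _), fun x hx => ?_⟩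
  set R := max (max R1 R2) (max Λ S.R0 + 1) with hR
  have hR1 : 1 ≤ R := le_trans (by linarith [le_max_left Λ S.R0, h.Λ_ge]) (le_max_right _ _)
  have hx2 : R2 ≤ ‖x‖ := ((le_max_right _ _).trans (le_max_left _ _)).trans hx
  have hx3 : max Λ S.R0 < ‖x‖ := by linarith [le_max_right (max R1 R2) (max Λ S.R0 + 1)]
  have ho : IsOpen {y : E n | max Λ S.R0 < ‖y‖} := isOpen_lt continuous_const continuous_norm
  have hφ : φ =ᶠ[𝓝 x] fun _ => 1 := by
    filter_upwards [ho.mem_nhds hx3] with y hy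
    exact h.phi_far ((le_max_left _ _).trans (le_of_lt hy)) ((le_max_right _ _).trans (le_of_lt hy))
  have hconf : Conf (fun _ => 1) S.g S.ψ {y : E n | max Λ S.R0 < ‖y‖} :=
    ⟨⟨ho, fun _ _ => contDiffOn_const, fun _ _ => Matrix.PosDef.one⟩, hG.ψ_smooth.contDiffOn,
      fun y hy => hG.g_far y ((le_max_right _ _).trans (le_of_lt hy))⟩
  have hψ : ‖fderiv ℝ S.ψ x‖ ≤ S.C := by
    have := hG.ψ_decay 1 (by norm_num) x
    rw [norm_iteratedFDeriv_one] at this
    exact this.trans (mul_le_of_le_one_right (by linarith)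
      (Real.rpow_le_one_of_one_le_of_nonpos (by linarith [norm_nonneg x])
        (by push_cast; linarith)))
  set j := (1 + ‖x‖ ^ 2) ^ (-(((n : ℝ) + S.e0) / 2)) with hj
  have hj0 : 0 < j := by positivity
  have hj1 : j ≤ 1 := Real.rpow_le_one_of_one_le_of_nonpos (by nlinarith [sq_nonneg ‖x‖])
    (by linarith [hG.e0_pos])
  have hmw : S.mw x = S.c1 * j := by rw [Setup.mw, hj, neg_div]
  set σ0 := ρ / ((1 + 3 * S.C) * c) * j with hσ0
  have hσ00 : 0 < σ0 := by positivity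
  have hσ : (1 + 3 * S.C) * (c * σ0) = ρ * j := by rw [hσ0]; field_simp
  have hric : ∀ w, quadForm S.g x w ≤ 1 → |bil (ricM S.g x) w w| ≤ |S.C0| := fun w hw => by
    have h4 := h.ok.C0_big x w hw
    have h5 : S.cw x ≤ |S.C0| := by
      rw [Setup.cw]
      refine (mul_le_mul_of_nonneg_right (le_abs_self _) (by positivity)).trans ?_
      exact mul_le_of_le_one_right (abs_nonneg _)
        (Real.rpow_le_one_of_one_le_of_nonpos (by nlinarith [sq_nonneg ‖x‖]) (by linarith))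
    have h6 : 0 ≤ ((n : ℝ) - 1) * (traceK S.g S.K x - bil (S.K x) w w) ^ 2 :=
      mul_nonneg (by linarith) (sq_nonneg _)
    linarith [abs_nonneg (scalarCurv S.g x), abs_nonneg (bil (ricM S.g x) w w)]
  have key : ∀ f' : E n → ℝ, ContDiff ℝ ∞ f' → (∀ i ≤ 2, ‖iteratedFDeriv ℝ i f' x‖ ≤ c * σ0) →
      Id.sq S.g φ f' x ≤ S.C * (ρ * j) ^ 2 ∧
      |FF (gb S.g φ f') z x - FF S.g z x| ≤ K * (ρ * j) ^ 2 := by
    intro f' hf' hb
    refine hfar S.g φ f' z x (ρ * j) (al n) (h.jd hf') (h.bz.1.contDiffAt.of_le (by norm_cast)) hφ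
      (by positivity) (abs_al_le h.hn) (hG.g_lo x) hric ?_ (fun Y Z => ?_) ?_ (fun Y Z => ?_)
    · rw [← norm_iteratedFDeriv_one, ← hσ]
      exact (hb 1 (by norm_num)).trans (le_mul_of_one_le_left (by positivity) (by linarith))
    · rw [← hσ]
      exact abs_hess_le hconf hx3 hψ (hb 1 (by norm_num)) (hb 2 le_rfl) Y Z
    · rw [← norm_iteratedFDeriv_one]
      exact ((h.bz.2 1 x).trans (le_max_left _ _)).trans
        (le_mul_of_one_le_left hBz0 (by linarith))
    · exact abs_hess_le hconf hx3 hψ ((h.bz.2 1 x).trans (le_max_left _ _))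
        ((h.bz.2 2 x).trans (le_max_right _ _)) Y Z
  have hsm : ContDiff ℝ ∞ fun y => eta R y * f y := (Bs.contDiff_eta R).mul h.bf.1
  have k1 := key f h.bf.1 fun i hi =>
    (hR2 x hx2 i hi).trans (le_mul_of_one_le_left hσ00.le hc)
  have k2 := key _ hsm (hcut R hR1 f x σ0 h.bf.1 (hR2 x hx2))
  have hq : (ρ * j) ^ 2 ≤ ρ * j := by
    rw [_root_.sq]
    exact mul_le_of_le_one_left (by positivity) (mul_le_one₀ hρ1 hj0.le hj1)
  refine ⟨k2.1.trans ?_, fun hx' => ?_⟩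
  · nlinarith [mul_le_mul_of_nonneg_left hq (by linarith : 0 ≤ S.C)]
  · have h4 := (h.FF_ge hx').1
    have h5 := h.ok.E_far x ((le_max_right _ _).trans hx3.le)
    have h6 := (h.jd hsm).eSq_gb_le (mem_univ x) S.EE
    have h7 : K * (ρ * j) ^ 2 ≤ K * (ρ * j) := mul_le_mul_of_nonneg_left hq hK
    have h8 : 2 * (K * (ρ * j)) ≤ S.mw x := by
      rw [hmw]
      nlinarith [mul_le_mul_of_nonneg_right hρ2 hj0.le, mul_pos hρ0 hj0]
    linarith [(abs_le.1 k1.2).2, (abs_le.1 k2.2).1]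

end Ctx

end Crest.Agent.N346.P1.Out

end
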