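import Crest.Agent.N346.P1.OutB
import Crest.Agent.N346.P1.OutC

/-!
Row 346, Part 1.8 (helper90): `out : OutStmt`, the neck built from the limit solution.
-/

set_option autoImplicit false

open scoped ContDiff Topology
open Filter Set Metric MeasureTheory
open Crest.GeometryTopology.CoordMetric Crest.MathPhysics.ExteriorData
open Crest.Agent.R202.Tens Crest.Agent.R247.Bo84 Crest.Agent.N346.Id

noncomputable section

namespace Crest.Agent.N346.P1.Out

variable {n : ℕ} {S : Setup n} {e M z3 Λ : ℝ} {B : ℕ → ℝ} {f z : E n → ℝ}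

local notation "φ" => ph0 S e M z3 f z

theorem conf_FF (hn : 3 ≤ n) {g g' : MetricField n} {z : E n → ℝ} (hz : ContDiff ℝ ∞ z)
    (h : Conf g g' (fun y => ((n : ℝ) - 1)⁻¹ * z y) univ) (x : E n) :
    scalarCurv g' x = Real.exp (-(2 * (((n : ℝ) - 1)⁻¹ * z x))) * FF g z x := by
  have h3 : (3 : ℝ) ≤ n := by exact_mod_cast hn
  have h1 : (n : ℝ) - 1 ≠ 0 := by linarith
  have hz2 : ContDiffAt ℝ 2 z x := hz.contDiffAt.of_le (by norm_cast)
  have hzd : DifferentiableAt ℝ z x := hz2.differentiableAt (by norm_num)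
  rw [h.scalar_eq (mem_univ x), lap_const_mul h.riem₁ (mem_univ x) _ hz2,
    gam_const_mul_left _ hzd, gam_const_mul_right _ hzd, FF, al]
  congr 1
  field_simp

theorem neck_core (h : Ctx S e M z3 Λ B f z) (hA : 0 ≤ S.A) {η : ℝ} (hη : 2 * S.θ ≤ η)
    (hgrad : Integrable fun x => ∑ i, pderiv i z x ^ 2)
    (hflux : FluxLE (fun x => Real.exp (al n * z x / 2)) (((n : ℝ) - 2) * unitSphereArea n * η / 2))
    {κ cβ Λ' : ℝ} (hκ : 0 < κ) (hcβ : ∀ t, |deriv (be S.t0) t| ≤ cβ)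
    (hκ2 : (κ * cβ) ^ 2 ≤ S.t0 ^ 2 / 8) (h2 : 3 * S.C * Λ ^ 3 ≤ Λ') (h3 : 8 * Λ / S.t0 ^ 2 ≤ Λ')
    (h4 : Λ + 2 * Λ / (S.t0 * e ^ 2) ≤ Λ') :
    ∃ (g' : MetricField n) (d U : E n → ℝ),
      Neck n η Λ' (κ / e) (S.m + η) ((1 - η) * S.A) S.Q g' d U S.EE := by
  have hG := h.ok.good
  have hC := hG.C_ge
  have hn3 : (3 : ℝ) ≤ n := by exact_mod_cast h.hn
  have hθ : 0 < S.θ := h.ok.par_ok.θ_pos
  have hθ1 : S.θ ≤ 1 := h.ok.par_ok.θ_le
  have ht0 : 0 < S.t0 := h.ok.par_ok.t0_pos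
  have ht01 : 4 * S.t0 ≤ S.t1 := h.ok.par_ok.t01
  have ht1 : S.t1 ≤ 1 := h.ok.par_ok.t1_le
  have he := h.e_pos
  have he1 := h.e_lt
  have hΛ := h.Λ_ge
  have hΛ3 : Λ ≤ Λ ^ 3 := le_self_pow₀ hΛ (by norm_num)
  obtain ⟨R, hRΛ, hR1, hR0, hfar⟩ := h.far Λ'
  have hRpos : 0 < R := by linarith
  set ft : E n → ℝ := fun y => eta R y * f y with hft
  have hftc : ContDiff ℝ ∞ ft := (Bs.contDiff_eta R).mul h.bf.1
  have hd := h.jd h.bf.1
  have hdt := h.jd hftc
  set gt := gb S.g φ ft with hgt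
  set c : ℝ := ((n : ℝ) - 1)⁻¹ with hc
  have hc0 : 0 < c := inv_pos.2 (by linarith)
  have hc2 : 2 * c ≤ 1 := by
    rw [hc, ← div_eq_mul_inv, div_le_one (by linarith)]; linarith
  have hcn : ((n : ℝ) - 1) * c = 1 := mul_inv_cancel₀ (by linarith)
  set g' : MetricField n := fun y => Real.exp (2 * (c * z y)) • gt y with hg'
  have hconf : Conf gt g' (fun y => c * z y) univ :=
    ⟨hdt.riemb, (contDiff_const.mul h.bz.1).contDiffOn, fun _ _ => rfl⟩
  set ε : E n → ℝ := fun x => Real.exp (-(2 * (c * z x))) with hε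
  have hε0 : ∀ x, 0 < ε x := fun x => Real.exp_pos _
  have hεhi : ∀ x, ε x ≤ 3 := fun x => by
    have h1 : -(2 * (c * z x)) ≤ 1 := by nlinarith [h.est.z_lo x]
    exact (Real.exp_le_exp.2 h1).trans (by linarith [Real.exp_one_lt_d9])
  have hεinv : ∀ x, Real.exp (2 * (c * z x)) ≤ Λ := fun x => by
    rcases le_total 0 (z x) with hz | hz
    · exact (Real.exp_le_exp.2 (by nlinarith)).trans (h.est.z_hi x)
    · exact (Real.exp_le_one_iff.2 (by nlinarith)).trans hΛ
  have hεmul : ∀ x, ε x * Real.exp (2 * (c * z x)) = 1 := fun x => by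
    rw [hε, ← Real.exp_add]; simp
  have hsc : ∀ x, scalarCurv g' x = ε x * FF gt z x := conf_FF h.hn h.bz.1 hconf
  have hE : ∀ x, 2 * (1 - η) * eSq g' S.EE x ≤ ε x * (2 * eSq gt S.EE x) := fun x => by
    have h0 := eSq_nonneg hdt.riemb (mem_univ x) S.EE
    have h1 : Real.exp (-(2 * ((n : ℝ) - 1) * (c * z x))) =
        ε x * Real.exp (-(2 * (1 - c) * z x)) := by
      rw [hε, ← Real.exp_add]
      congr 1
      linear_combination (-2 * z x) * hcn
    have h5 : (1 - η) * Real.exp (-(2 * (1 - c) * z x)) ≤ 1 := by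
      have h6 := Real.add_one_le_exp (2 * (1 - c) * z x)
      have h7 : 1 - η ≤ Real.exp (2 * (1 - c) * z x) := by nlinarith [h.est.z_lo x]
      rw [Real.exp_neg, ← div_eq_mul_inv, div_le_one (Real.exp_pos _)]
      exact h7
    rw [hconf.eSq_eq (mem_univ x), h1]
    have := mul_le_mul_of_nonneg_right h5 (mul_nonneg (hε0 x).le h0)
    nlinarith
  set d : E n → ℝ := fun x => κ / e * be S.t0 (e ^ 3 * f x) with hdd
  have hℓ : 0 < κ / e := by positivity
  have hsmall : ∀ x, Λ' ≤ ‖x‖ → |e ^ 3 * f x| ≤ S.t0 / 2 := fun x hx => by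
    have hq : 0 < 2 * Λ / (S.t0 * e ^ 2) := by positivity
    have h5 := h.est.far_f x (by linarith)
    have h6 : 2 * Λ / S.t0 ≤ e ^ 2 * (‖x‖ - Λ) := by
      have : 2 * Λ / S.t0 = e ^ 2 * (2 * Λ / (S.t0 * e ^ 2)) := by field_simp
      rw [this]
      gcongr
      linarith
    have h7 : 2 * Λ / S.t0 ≤ Real.exp (e ^ 2 * (‖x‖ - Λ)) := by
      linarith [Real.add_one_le_exp (e ^ 2 * (‖x‖ - Λ))]
    rw [neg_mul, Real.exp_neg, ← div_eq_mul_inv] at h5
    have h8 : Λ / Real.exp (e ^ 2 * (‖x‖ - Λ)) ≤ S.t0 / 2 := by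
      rw [div_le_iff₀ (Real.exp_pos _)]
      rw [div_le_iff₀ ht0] at h7
      linarith
    rw [abs_mul, abs_of_pos (pow_pos he 3)]
    exact (mul_le_of_le_one_left (abs_nonneg _) (pow_le_one₀ he.le he1.le)).trans (h5.trans h8)
  have hlt : ∀ x, d x < κ / e → |e ^ 3 * f x| < S.t0 := fun x hx => by
    by_contra h5
    rw [hdd] at hx
    simp only [be_one ht0 (not_lt.1 h5), mul_one] at hx
    exact lt_irrefl _ hx
  have hgr : ∀ x, gradSq g' d x ≤ ε x * (S.t0 ^ 2 / 8) := fun x => by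
    have h5 : HasDerivAt (fun t => κ / e * be S.t0 (e ^ 3 * t))
        (κ / e * (deriv (be S.t0) (e ^ 3 * f x) * e ^ 3)) (f x) := by
      have h6 := ((be_smooth S.t0).differentiable (by simp) (e ^ 3 * f x)).hasDerivAt
      have h7 : HasDerivAt (fun t => e ^ 3 * t) (e ^ 3) (f x) := by
        simpa using (hasDerivAt_id (f x)).const_mul (e ^ 3)
      exact (h6.comp (f x) h7).const_mul _
    have h6 : gradSq g' d x = (κ / e * (deriv (be S.t0) (e ^ 3 * f x) * e ^ 3)) ^ 2 *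
        gradSq g' f x := Bs.gradSq_comp h5 (Bs.smooth_diff h.bf.1 x)
    rw [h6]
    rcases le_or_gt R ‖x‖ with hx | hx
    · rw [deriv_be_zero ht0 (hsmall x (hRΛ.trans hx))]
      have := hε0 x
      simp only [zero_mul, mul_zero, ne_eq, OfNat.ofNat_ne_zero, not_false_eq_true, zero_pow]
      positivity
    · have h7 : gam gt f f x = gam (gb S.g φ f) f f x := by
        rw [gam, gam, inverseField, inverseField, hgt, (gb_cut hRpos S.g φ f hx).self_of_nhds]
      have h8 := hd.gam_gb_f_f (mem_univ x)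
      have h9 := gam_self_nonneg hd.riemb (mem_univ x) f
      have h10 : (e ^ 2) ^ 2 * gam (gb S.g φ f) f f x ≤ 1 := by
        refine le_trans ?_ (h8 ▸ (hd.pp_lt_one (mem_univ x)).le)
        gcongr
        exact h.phi_ge x
      have h11 : (κ * deriv (be S.t0) (e ^ 3 * f x)) ^ 2 ≤ S.t0 ^ 2 / 8 := by
        refine le_trans ?_ hκ2
        rw [← sq_abs, abs_mul, abs_of_pos hκ]
        gcongr
        exact hcβ _
      rw [gradSq_eq_gam, hconf.gam_eq (mem_univ x), h7]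
      have h12 : (κ / e * (deriv (be S.t0) (e ^ 3 * f x) * e ^ 3)) ^ 2 *
          (ε x * gam (gb S.g φ f) f f x) = ε x * ((κ * deriv (be S.t0) (e ^ 3 * f x)) ^ 2 *
            ((e ^ 2) ^ 2 * gam (gb S.g φ f) f f x)) := by
        field_simp
      rw [h12]
      refine mul_le_mul_of_nonneg_left ?_ (hε0 x).le
      exact (mul_le_of_le_one_right (sq_nonneg _) h10).trans h11
  have hq : ∀ x v, quadForm g' x v = Real.exp (2 * (c * z x)) * bil (gt x) v v := fun x v => by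
    rw [quadForm_eq, hconf.bil_eq (mem_univ x)]
  have hlo : ∀ x v, Real.exp (-(2 * c * S.θ)) * quadForm S.g x v ≤ quadForm g' x v := fun x v => by
    rw [hq, quadForm_eq]
    exact mul_le_mul (Real.exp_le_exp.2 (by nlinarith [h.est.z_lo x])) (hdt.bil_le_gb (mem_univ x) v)
      (bil_self_nonneg hG.riem (mem_univ x) v) (Real.exp_pos _).le
  have hz : Hd (3 * ((n : ℝ) - 2) / 4) z :=
    hd_z h.bz.1 (B := B 0) (by linarith) hΛ
      (fun x => by simpa using h.bz.2 0 x) h.est.far_z hgrad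
  have hψ : Hd (3 * ((n : ℝ) - 2) / 4) S.ψ := hd_psi h.hn hG.ψ_smooth (by linarith) hG.ψ_decay
  have hy := (hz.const_mul (al n / 2)).add (hψ.const_mul (((n : ℝ) - 2) / 2))
  have hU := hy.exp_sub_one (by linarith)
  have hΛ'3 : 3 * S.C ≤ Λ' := le_trans (by nlinarith) h2
  have hΛ'0 : 0 < Λ' := by linarith
  refine ⟨g', d, fun x => Real.exp (al n / 2 * z x + ((n : ℝ) - 2) / 2 * S.ψ x),
    { riem := hconf.riem
      g_lo := fun x v => ?_
      g_hi := fun x v => ?_
      d_smooth := contDiff_const.mul ((be_smooth _).comp (contDiff_const.mul h.bf.1))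
      d_nonneg := fun x => mul_nonneg hℓ.le (cut_nonneg _ _ _)
      d_lip := fun x => ?_
      d_far := fun x hx => by simp only [hdd, be_zero ht0 (hsmall x hx), mul_zero]
      R_out := fun x hx => ?_
      R_neck := fun x hx0 hx => ?_
      U_smooth := hy.smooth.exp
      U_pos := fun x => Real.exp_pos _
      g_inf := ⟨2 * R + 1, fun x hx => ?_⟩
      U_lim := ?_
      U_grad := ?_
      U_hardy := hU.hardy (by linarith)
      mass := ?_
      area := ?_
      EE_smooth := hG.EE_smooth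
      EE_decay := ⟨S.C, hG.EE_decay⟩
      EE_div := fun x hx => hG.EE_div x (by linarith [h.ra_lt (hlt x hx), h.ok.ra_gt])
      charge := hG.charge }⟩
  · refine le_trans ?_ (hlo x v)
    have h5 : (1:ℝ) / 3 ≤ Real.exp (-(2 * c * S.θ)) := by
      rw [Real.exp_neg, one_div]
      refine inv_anti₀ (Real.exp_pos _) ?_
      exact (Real.exp_le_exp.2 (by nlinarith : 2 * c * S.θ ≤ 1)).trans
        (by linarith [Real.exp_one_lt_d9])
    calc Λ'⁻¹ * ‖v‖ ^ 2 ≤ (3 * S.C)⁻¹ * ‖v‖ ^ 2 := by gcongr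
      _ = 1 / 3 * (S.C⁻¹ * ‖v‖ ^ 2) := by field_simp
      _ ≤ _ := mul_le_mul h5 (hG.g_lo x v) (by positivity) (Real.exp_pos _).le
  · have h5 : bil (S.g x) v v ≤ S.C * ‖v‖ ^ 2 := quadForm_eq S.g x v ▸ hG.g_hi x v
    have h6 : bil (gt x) v v ≤ 3 * Λ ^ 2 * (S.C * ‖v‖ ^ 2) := by
      have hΛ2 : 1 ≤ Λ ^ 2 := one_le_pow₀ hΛ
      rcases le_or_gt R ‖x‖ with hx | hx
      · refine (hdt.gb_le (mem_univ x) v).trans (mul_le_mul ?_ h5
          (bil_self_nonneg hG.riem (mem_univ x) v) (by positivity))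
        rw [hdt.gm_sq (mem_univ x)]
        linarith [(hfar x hx).1]
      · rw [hgt, (gb_cut hRpos S.g φ f hx).self_of_nhds]
        refine (hd.gb_le (mem_univ x) v).trans (mul_le_mul ?_ h5
          (bil_self_nonneg hG.riem (mem_univ x) v) (by positivity))
        have := pow_le_pow_left₀ (hd.gm_pos (mem_univ x)).le (h.est.gm_hi x) 2
        linarith
    rw [hq]
    calc Real.exp (2 * (c * z x)) * bil (gt x) v v ≤ Λ * (3 * Λ ^ 2 * (S.C * ‖v‖ ^ 2)) :=
          mul_le_mul (hεinv x) h6 (bil_self_nonneg hdt.riemb (mem_univ x) v) (by positivity)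
      _ = 3 * S.C * Λ ^ 3 * ‖v‖ ^ 2 := by ring
      _ ≤ _ := by gcongr
  · refine (hgr x).trans ?_
    nlinarith [hεhi x, hε0 x]
  · refine (hE x).trans ?_
    rw [hsc]
    refine mul_le_mul_of_nonneg_left ?_ (hε0 x).le
    rcases le_or_gt R ‖x‖ with hx' | hx'
    · exact (hfar x hx').2 (hlt x hx)
    · have h5 := gb_cut hRpos S.g φ f hx'
      rw [hgt, FF_congr h5, eSq, vecNormSq, h5.self_of_nhds]
      have := (h.FF_ge (hlt x hx)).2
      rw [eSq, vecNormSq] at this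
      linarith [sq_nonneg (e ^ 3 * f x)]
  · have h6 : S.t0 / 2 < |e ^ 3 * f x| := by
      by_contra h7
      simp only [hdd, be_zero ht0 (not_lt.1 h7), mul_zero] at hx0
      exact lt_irrefl _ hx0
    have hx' : ‖x‖ < R := by
      by_contra h7
      linarith [hsmall x (hRΛ.trans (not_lt.1 h7))]
    have h5 := gb_cut hRpos S.g φ f hx'
    have h7 : S.t0 ^ 2 / 4 + 2 * eSq gt S.EE x ≤ FF gt z x := by
      rw [hgt, FF_congr h5, eSq, vecNormSq, h5.self_of_nhds]
      have := (h.FF_ge (hlt x hx)).2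
      rw [eSq, vecNormSq, ← sq_abs (e ^ 3 * f x)] at this
      nlinarith
    have h8 : Λ'⁻¹ ≤ ε x * (S.t0 ^ 2 / 8) := by
      have h9 : Λ'⁻¹ ≤ (8 * Λ / S.t0 ^ 2)⁻¹ := inv_anti₀ (by positivity) h3
      refine h9.trans ?_
      have h10 : 1 ≤ ε x * Λ := by
        rw [← hεmul x]
        exact mul_le_mul_of_nonneg_left (hεinv x) (hε0 x).le
      rw [inv_div, div_le_iff₀ (by positivity)]
      nlinarith [sq_nonneg S.t0]
    rw [hsc]
    nlinarith [hE x, hgr x, mul_le_mul_of_nonneg_left h7 (hε0 x).le]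
  · have h5 : gt x = S.g x := gb_cut_far hRpos S.g φ f (by linarith)
    simp only [hg']
    rw [h5, hG.g_far x (by linarith), smul_smul, ← Real.exp_add, ← Real.exp_mul]
    congr 2
    have h6 : (n : ℝ) - 2 ≠ 0 := by linarith
    have h7 : (n : ℝ) - 1 ≠ 0 := by linarith
    rw [hc, al]
    field_simp
    ring
  · have := (hU.tendsto (by linarith)).add_const 1
    simpa using this
  · refine integrable_finsetSum _ fun i _ => ?_
    simpa only [Bs.pd_sub_const] using hU.grad i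
  · have hl : Integrable (lap S.ψ) := by
      have h1 : Integrable fun x : E n => (1 + ‖x‖) ^ (-((n : ℝ) + S.e0)) :=
        integrable_one_add_norm (by simp; linarith [hG.e0_pos])
      refine (h1.const_mul S.C).mono' (Bs.contDiff_lap hG.ψ_smooth).continuous.aestronglyMeasurable
        (.of_forall fun x => ?_)
      have := hG.ψ_lap x
      rwa [neg_add, ← sub_eq_add_neg]
    have h5 := flux_exp_add (hz.const_mul (al n / 2)) hψ (by linarith) (by linarith)
      (c := ((n : ℝ) - 2) / 2) (by linarith) hl hG.mass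
      (ε := ((n : ℝ) - 2) * unitSphereArea n * η / 2) (by
        simpa only [div_mul_eq_mul_div] using hflux)
    exact h5.mono (le_of_eq (by ring))
  · have h5 := (hG.area.mono_metric_rpow (by linarith [h.hn]) hG.riem hconf.riem
      (Real.exp_pos _).le fun x _ v => hlo x v)
    refine (h5.mono_set fun x hx => ?_).mono_area (mul_le_mul_of_nonneg_right ?_ hA)
    · have h6 := h.est.inner x (le_trans hx h.ok.ra_gt.le)
      have h7 : S.t0 ≤ |e ^ 3 * f x| := le_abs'.2 (Or.inl (by linarith))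
      simp only [mem_setOf_eq, hdd, be_one ht0 h7, mul_one, le_refl]
    · rw [← Real.exp_mul]
      have h6 : -(2 * c * S.θ) * (((n : ℝ) - 1) / 2) = -S.θ := by
        linear_combination (-S.θ) * hcn
      rw [h6]
      linarith [Real.add_one_le_exp (-S.θ)]

end Crest.Agent.N346.P1.Out

namespace Crest.Agent.N346.P1

open Out

theorem out : OutStmt := by
  intro n hn S hS hA η _ hθη N
  have ht0 : 0 < S.t0 := hS.par_ok.t0_pos
  have hC := hS.good.C_ge
  obtain ⟨cβ, hcβ0, hcβ⟩ := exists_be_bound ht0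
  set κ := S.t0 / (3 * cβ) with hκ
  have hκ0 : 0 < κ := by positivity
  set K := 3 * S.C + 8 / S.t0 ^ 2 + 1 + 2 / S.t0 with hK
  have hK0 : 0 < K := by positivity
  refine ⟨2 * (3 * N + 3), fun ℓ0 => ⟨min (min (κ ^ 2) (1 / K)) (min (κ / max ℓ0 1) (1 / 2)),
    by positivity, fun e he he1 M z3 hz3 B f z hsol hf hz hest hgrad hflux => ?_⟩⟩
  simp only [le_min_iff] at he1
  obtain ⟨⟨h1, h2⟩, h3, h4⟩ := he1
  have he1 : e < 1 := by linarith
  set y := e⁻¹ with hy
  have hy1 : 1 ≤ y := (one_le_inv₀ he).2 he1.le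
  have hΛ : (e ^ N)⁻¹ = y ^ N := by rw [hy, inv_pow]
  have hΛ1 : 1 ≤ (e ^ N)⁻¹ := hΛ ▸ one_le_pow₀ hy1
  have hyK : K ≤ y := by
    rw [hy, le_inv_comm₀ hK0 he, ← one_div]; exact h2
  have hW : K * y ^ (3 * N + 2) ≤ (κ / e) ^ (2 * (3 * N + 3)) := by
    have h5 : y ≤ (κ / e) ^ 2 := by
      rw [div_pow, le_div_iff₀ (by positivity), hy, _root_.sq e, inv_mul_cancel_left₀ he.ne']
      exact h1
    rw [pow_mul]
    calc K * y ^ (3 * N + 2) ≤ y * y ^ (3 * N + 2) := by gcongr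
      _ = y ^ (3 * N + 3) := by ring
      _ ≤ _ := by gcongr
  have p1 : (y ^ N) ^ 3 ≤ y ^ (3 * N + 2) := by
    rw [← pow_mul]; exact pow_le_pow_right₀ hy1 (by omega)
  have p2 : y ^ N ≤ y ^ (3 * N + 2) := pow_le_pow_right₀ hy1 (by omega)
  have p3 : y ^ N * y ^ 2 ≤ y ^ (3 * N + 2) := by
    rw [← pow_add]; exact pow_le_pow_right₀ hy1 (by omega)
  have p0 : 0 < y ^ (3 * N + 2) := by positivity
  have q1 : 0 < 8 / S.t0 ^ 2 := by positivity
  have q2 : 0 < 2 / S.t0 := by positivity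
  refine ⟨κ / e, ?_, neck_core ⟨hn, hS, he, he1, hΛ1, hz3, hsol, hf, hz, hest⟩ hA hθη hgrad hflux
    hκ0 hcβ ?_ (le_trans ?_ hW) (le_trans ?_ hW) (le_trans ?_ hW)⟩
  · rw [ge_iff_le, le_div_iff₀ he]
    rw [le_div_iff₀ (by positivity)] at h3
    nlinarith [le_max_left ℓ0 1]
  · have : κ * cβ = S.t0 / 3 := by rw [hκ]; field_simp
    rw [this]
    nlinarith
  · rw [hΛ]
    exact mul_le_mul (by linarith) p1 (by positivity) hK0.le
  · rw [hΛ, mul_div_right_comm]
    exact mul_le_mul (by linarith) p2 (by positivity) hK0.le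
  · have e1 : 2 * y ^ N / (S.t0 * e ^ 2) = 2 / S.t0 * (y ^ N * y ^ 2) := by
      rw [hy]; field_simp
    rw [hΛ, e1, hK]
    nlinarith [mul_le_mul_of_nonneg_left p3 q2.le]

end Crest.Agent.N346.P1

end
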