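import Crest.Agent.N346.P1.SetupB

/-! Row 346, P1-S (helper41): `setup : SetupStmt`. -/

set_option autoImplicit false

open Filter Topology Set
open scoped ContDiff
open Crest.GeometryTopology.CoordMetric Crest.MathPhysics.ExteriorData
open Crest.Agent.R202.Tens Crest.Agent.R247.Bo84 Crest.Agent.N346.Id

noncomputable section

namespace Crest.Agent.N346.P1

namespace St

variable {n : ℕ} {m A Q : ℝ} {g K : MetricField n} {EE : VectorField n} {ψ s : E n → ℝ}
  {R0 C c0 e0 θ0 r1 : ℝ} {x : E n}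

theorem isCompact_shell (h : Good n m A Q g K EE ψ s R0 C c0 e0 θ0 r1) (a : ℝ) {b : ℝ}
    (hb : b < 2) : IsCompact {x | a ≤ s x ∧ s x ≤ b} :=
  (isCompact_closedBall (0 : E n) R0).of_isClosed_subset
    ((isClosed_le continuous_const h.s_smooth.continuous).inter
      (isClosed_le h.s_smooth.continuous continuous_const)) fun x hx =>
    mem_closedBall_zero_iff.2 (le_of_not_ge fun h' => by linarith [h.s_far x h', hx.2])

/-- the barrier family is a supersolution after adding `k g` to `K` -/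
theorem exists_barrier (hn : 3 ≤ n) (h : Good n m A Q g K EE ψ s R0 C c0 e0 θ0 r1) :
    ∃ (κ : ℝ) (k : E n → ℝ), 0 < κ ∧ ContDiff ℝ ∞ k ∧ (∀ x, 0 ≤ k x) ∧ (∀ x, 1 ≤ s x → k x = 0) ∧
      ∀ ρ ∈ Icc (3 / 16 : ℝ) r1, ∀ x, s x < ρ →
        Th g (fun _ => 1) (fun y => bf κ ρ (s y)) (fun y => K y + k y • g y) x
          ≤ -2 * min 1 (θ0 / 8) := by
  have hg := h.riem
  have hs := h.s_smooth
  have hθ := h.θ0_pos
  have hN : (3 : ℝ) ≤ n := by exact_mod_cast hn
  have ha : ∀ x, 1 / 8 ≤ s x → 0 < gam g s s x := fun x hx =>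
    Bs.gradSq_pos hg (h.s_reg x (by linarith))
  have cL : Continuous (laplaceBeltrami g s) := (Bs.contDiff_laplaceBeltrami hg hs).continuous
  have ca : Continuous (gam g s s) := (Bs.contDiff_gradSq hg hs).continuous
  have cH := continuous_Hss hg hs
  have cQ := continuous_Kss hg hs h.K_smooth
  have cT := continuous_traceK hg h.K_smooth
  have hS := isCompact_shell h (1 / 8) h.r1_lt
  have hr : ∀ x ∈ {x | 1 / 8 ≤ s x ∧ s x ≤ r1}, 0 < √(gam g s s x) := fun x hx =>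
    Real.sqrt_pos.2 (ha x hx.1)
  have c1 := cL.continuousOn.div ca.sqrt.continuousOn fun x hx => (hr x hx).ne'
  have c2 := cH.continuousOn.div (ca.sqrt.pow 3).continuousOn fun x hx => (pow_pos (hr x hx) 3).ne'
  have c3 := cQ.continuousOn.div (ca.sqrt.pow 2).continuousOn fun x hx => (pow_pos (hr x hx) 2).ne'
  have c4 := ca.sqrt.continuousOn.inv₀ fun x hx => (hr x hx).ne'
  obtain ⟨D, hD⟩ := hS.exists_bound_of_continuousOn (((c1.abs.add c2.abs).add c3.abs).add c4)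
  have hD' : ∀ x, 1 / 8 ≤ s x → s x ≤ r1 →
      |laplaceBeltrami g s x / √(gam g s s x)| ≤ D ∧ |Hss g s x / √(gam g s s x) ^ 3| ≤ D ∧
      |Kss g K s x / √(gam g s s x) ^ 2| ≤ D ∧ (√(gam g s s x))⁻¹ ≤ D := fun x h1 h2 => by
    have h3 := (le_abs_self _).trans (hD x ⟨h1, h2⟩)
    have h4 := inv_pos.2 (hr x ⟨h1, h2⟩)
    simp only [Pi.add_apply, Pi.div_apply, Pi.inv_apply, Pi.pow_apply] at h3
    have p1 := abs_nonneg (laplaceBeltrami g s x / √(gam g s s x))
    have p2 := abs_nonneg (Hss g s x / √(gam g s s x) ^ 3)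
    have p3 := abs_nonneg (Kss g K s x / √(gam g s s x) ^ 2)
    exact ⟨by linarith, by linarith, by linarith, by linarith⟩
  set κ := max 1 (4 * (32 * D ^ 3 + 2 * D) / θ0) with hκ
  have hκ1 : 1 ≤ κ := le_max_left _ _
  have hκ0 : 0 < κ := by linarith
  have hκ2 : (32 * D ^ 3 + 2 * D) / κ ^ 2 ≤ θ0 / 4 := by
    have h1 : 4 * (32 * D ^ 3 + 2 * D) / θ0 ≤ κ := le_max_right _ _
    rw [div_le_iff₀ hθ] at h1
    rw [div_le_iff₀ (by positivity)]
    nlinarith [mul_le_mul_of_nonneg_left hκ1 (mul_pos hκ0 hθ).le]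
  -- the expansion stays negative slightly inside `s = 1`
  have cE : ContinuousOn (levelExp g K s) {x | 1 / 8 ≤ s x ∧ s x ≤ r1} :=
    (((c1.sub c2).sub cT.continuousOn).add c3).congr fun x hx => levelExp_eq hg hs (ha x hx.1)
  have hZ : IsCompact ({x | 1 / 8 ≤ s x ∧ s x ≤ r1} ∩ levelExp g K s ⁻¹' Ici (-θ0 / 2)) :=
    hS.of_isClosed_subset (cE.preimage_isClosed_of_isClosed hS.isClosed isClosed_Ici)
      inter_subset_left
  obtain ⟨δ, hδ, hδZ⟩ := hZ.exists_forall_le' (f := fun x => 1 - s x) (a := 0)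
    (continuous_const.sub hs.continuous).continuousOn fun x hx => by
      by_contra h'
      have h1 := h.trap x (by linarith) hx.1.2
      have h2 : -θ0 / 2 ≤ levelExp g K s x := hx.2
      linarith
  set σ := 1 - min δ (1 / 2) / 2 with hσ
  have hm0 : 0 < min δ (1 / 2) := lt_min hδ (by norm_num)
  have hσ1 : σ < 1 := by linarith
  have hE : ∀ x, σ ≤ s x → s x ≤ r1 → 1 / 8 ≤ s x ∧ levelExp g K s x ≤ -θ0 / 2 := fun x h1 h2 => by
    have h3 : 1 / 8 ≤ s x := by linarith [min_le_right δ (1 / 2)]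
    refine ⟨h3, le_of_not_ge fun h4 => ?_⟩
    have := hδZ x ⟨⟨h3, h2⟩, h4⟩
    linarith [min_le_left δ (1 / 2)]
  -- a bound in the inner region
  have cG : Continuous fun p : ℝ × E n => p.1 * laplaceBeltrami g s p.2 - p.1 ^ 3 * Hss g s p.2
      + 2 * p.1 ^ 3 * gam g s s p.2 / κ ^ 2 - traceK g K p.2 + p.1 ^ 2 * Kss g K s p.2 := by
    fun_prop
  obtain ⟨B, hB⟩ := ((isCompact_Icc (a := (0 : ℝ)) (b := max (2 * κ) D)).prod
    (isCompact_shell h 0 one_lt_two)).exists_bound_of_continuousOn cG.continuousOn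
  have hk0 : ∀ x, 0 ≤ (|B| + 2) * (1 - cut σ 1 (s x)) := fun x =>
    mul_nonneg (by positivity) (sub_nonneg.2 (Real.smoothTransition.le_one _))
  refine ⟨κ, fun x => (|B| + 2) * (1 - cut σ 1 (s x)), hκ0,
    contDiff_const.mul (contDiff_const.sub (Real.smoothTransition.contDiff.comp
      ((hs.sub contDiff_const).div_const _))), hk0, fun x hx => ?_, fun ρ hρ x hx => ?_⟩
  · have : cut σ 1 (s x) = 1 := Real.smoothTransition.one_of_one_le (by
      rw [le_div_iff₀ (by linarith)]; linarith)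
    simp only [this, sub_self, mul_zero]
  obtain ⟨u, u0, u1, u2, u3, u4, u5⟩ := Th_bf hg hs hκ0 hx
  rw [Th_add hg (jd_bf hg hs κ ρ) hx, u4, u5]
  have hs0 := h.s_nonneg x
  have hρ2 : ρ < 2 := hρ.2.trans_lt h.r1_lt
  have hsr : s x ≤ r1 := hx.le.trans hρ.2
  rcases le_total σ (s x) with hσx | hσx
  · obtain ⟨h1, h2⟩ := hE x hσx hsr
    obtain ⟨d1, d2, d3, d4⟩ := hD' x h1 hsr
    have hsq : √(gam g s s x) ^ 2 = gam g s s x := Real.sq_sqrt (ha x h1).le
    have := alg_bound (T := traceK g K x) u0 (hr x ⟨h1, hsr⟩) hκ0 (by rwa [hsq])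
      (by rw [hsq]; linarith) d1 d2 d3 d4
    rw [← levelExp_eq hg hs (ha x h1), hsq] at this
    have h3 := mul_nonneg (hk0 x) (show 0 ≤ n - u ^ 2 * gam g s s x by linarith)
    linarith [min_le_right 1 (θ0 / 8)]
  · have hu : u ≤ max (2 * κ) D := by
      rcases le_total (1 / 8) (s x) with h1 | h1
      · have hr' := hr x ⟨h1, hsr⟩
        have hsq : √(gam g s s x) ^ 2 = gam g s s x := Real.sq_sqrt (ha x h1).le
        refine le_trans ?_ ((hD' x h1 hsr).2.2.2.trans (le_max_right _ _))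
        rw [← one_div, le_div_iff₀ hr']
        rw [← hsq, ← mul_pow] at u2
        exact (sq_le_one_iff₀ (by positivity)).1 u2
      · refine u1.trans (le_trans ?_ (le_max_left _ _))
        have h2 : 1 / 4 ≤ √(ρ - s x) := Real.le_sqrt_of_sq_le (by linarith [hρ.1])
        rw [div_le_iff₀ (by positivity)]
        nlinarith
    have h1 := (le_abs_self _).trans ((hB (u, x) ⟨⟨u0, hu⟩, hs0, by linarith⟩).trans (le_abs_self B))
    have h2 : cut σ 1 (s x) = 0 := Real.smoothTransition.zero_of_nonpos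
      (div_nonpos_of_nonpos_of_nonneg (by linarith) (by linarith))
    simp only [h2, sub_zero, mul_one] at h1 ⊢
    have h3 : (|B| + 2) * 1 ≤ (|B| + 2) * (n - u ^ 2 * gam g s s x) := by gcongr; linarith
    linarith [min_le_left 1 (θ0 / 8)]

theorem exists_t0 (h : Good n m A Q g K EE ψ s R0 C c0 e0 θ0 r1) {c1 t1 : ℝ} (hc : 0 < c1)
    (ht : 0 < t1) : ∃ t0 : ℝ, 0 < t0 ∧ 4 * t0 ≤ t1 ∧ ∀ x : E n,
      4 * t0 * |traceK g K x| ≤ c1 * (1 + ‖x‖ ^ 2) ^ (-((n : ℝ) + e0) / 2) := by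
  obtain ⟨B, hB⟩ := (isCompact_closedBall (0 : E n) R0).exists_bound_of_continuousOn
    (continuous_traceK h.riem h.K_smooth).continuousOn
  set mu := c1 * (1 + R0 ^ 2) ^ (-((n : ℝ) + e0) / 2) with hmu
  have hmu0 : 0 < mu := by positivity
  refine ⟨min (t1 / 4) (mu / (4 * (|B| + 1))), by positivity,
    by linarith [min_le_left (t1 / 4) (mu / (4 * (|B| + 1)))], fun x => ?_⟩
  rcases le_total R0 ‖x‖ with hx | hx
  · have : traceK g K x = 0 := by simp [traceK, h.K_far x hx]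
    rw [this, abs_zero, mul_zero]
    positivity
  · have h1 : |traceK g K x| ≤ |B| + 1 :=
      ((hB x (mem_closedBall_zero_iff.2 hx)).trans (le_abs_self B)).trans (by linarith)
    have he : -((n : ℝ) + e0) / 2 ≤ 0 := by
      have : (0 : ℝ) ≤ n := n.cast_nonneg
      linarith [h.e0_pos]
    calc _ ≤ 4 * (mu / (4 * (|B| + 1))) * (|B| + 1) := by gcongr; exact min_le_right _ _
      _ = mu := by field_simp
      _ ≤ _ := mul_le_mul_of_nonneg_left (wt_anti (norm_nonneg x) hx he) hc.le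

end St

open St in
theorem setup : SetupStmt := by
  intro n hn m A Q g K EE ψ s R0 C c0 e0 θ0 r1 h θ hθ hθ1
  obtain ⟨κ, k, hκ, hk, hk0, hk1, hsup⟩ := exists_barrier hn h
  have hc0 := h.c0_pos
  have hne : 0 ≤ (n : ℝ) + e0 := by have := h.e0_pos; positivity
  set c1 := c0 * (2 : ℝ) ^ (-((n : ℝ) + e0) / 2) / 2 with hc1
  have hc1p : 0 < c1 := by positivity
  obtain ⟨R, hR⟩ := exists_E_far h hc1p
  have h' := good_add h hk hk0 hk1 (le_max_left R0 R)
  obtain ⟨C0, hC0⟩ := exists_C0 hn h'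
  have ht1 : 0 < min 1 (θ0 / 8) := lt_min one_pos (by linarith [h.θ0_pos])
  obtain ⟨t0, ht0, ht01, ht0s⟩ := exists_t0 h' hc1p ht1
  have hr1 := h.r1_gt
  have hr2 := h.r1_lt
  refine ⟨⟨m, A, Q, g, fun y => K y + k y • g y, EE, ψ, s, max R0 R, C, c0, e0, θ0, r1, θ, t0,
    min 1 (θ0 / 8), 1 + (r1 - 1) / 3, 1 + 2 * (r1 - 1) / 3, C0, c1, 2 * κ,
    fun ρ x => bf κ ρ (s x)⟩, ⟨h', ⟨hθ, hθ1, ht0, ht01, min_le_left _ _⟩, ?_, ?_, ?_, hc1p,
    fun x => ?_, ht0s, fun x hx => hR x ((le_max_right _ _).trans hx), hC0, ?_,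
    fun ρ _ => (jd_bf h.riem h.s_smooth κ ρ).f_smooth, fun ρ hρ x hx => ?_, fun ρ hρ x hx L => ?_,
    fun ρ hρ x hx => hsup ρ ⟨hρ.1, hρ.2.trans ?_⟩ x hx⟩, rfl, rfl, rfl, rfl, rfl⟩
  · show 1 < 1 + (r1 - 1) / 3
    linarith
  · show 1 + (r1 - 1) / 3 < 1 + 2 * (r1 - 1) / 3
    linarith
  · show 1 + 2 * (r1 - 1) / 3 < 2
    linarith
  · show 2 * (c1 * (1 + ‖x‖ ^ 2) ^ (-((n : ℝ) + e0) / 2)) ≤ c0 * (1 + ‖x‖) ^ (-(n : ℝ) - e0)
    have := mul_le_mul_of_nonneg_left (le_wt (norm_nonneg x) hne) hc0.le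
    rw [show -(n : ℝ) - e0 = -(n + e0) by ring, hc1]
    linarith
  · have := h.s_smooth.continuous
    exact (by unfold bf; fun_prop : Continuous fun p : ℝ × E n => bf κ p.1 (s p.2)).continuousOn
  · have h1 : ρ ≤ 1 + (r1 - 1) / 3 := hρ.2
    have h2 : √(ρ - s x) ≤ 2 := Real.sqrt_le_iff.2 ⟨by norm_num, by linarith [h.s_nonneg x]⟩
    have h3 := Real.sqrt_nonneg (ρ - s x)
    show bf κ ρ (s x) ∈ Icc (-(2 * κ)) 0
    unfold bf
    constructor <;> nlinarith
  · have hx' : s x = ρ := hx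
    subst hx'
    exact steep (Bs.smooth_diff h.s_smooth x) (h.s_reg x (by linarith [hρ.1])) hκ L
  · show 1 + (r1 - 1) / 3 ≤ r1
    linarith

end Crest.Agent.N346.P1
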