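import Crest.Agent.N346.Id.Frame
import Crest.Agent.N346.Basic2
import Crest.Agent.N346.P1.Defs

/-!
Row 346, Part 1.8 (helper90), file A: exponential decay of derivatives and the far estimate for
`R̄ - 2 Δ̄ z - α |dz|²` where `φ = 1`.
-/

set_option autoImplicit false

open scoped ContDiff Topology
open Filter Set Metric
open Crest.GeometryTopology.CoordMetric Crest.MathPhysics.ExteriorData
open Crest.Agent.R202.Tens Crest.Agent.R247.Bo84 Crest.Agent.N346.Id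

noncomputable section

namespace Crest.Agent.N346.P1.Out

variable {n : ℕ}

theorem landau {F : Type} [NormedAddCommGroup F] [NormedSpace ℝ F] {z : E n → F} {x : E n}
    {r M0 M2 : ℝ} (hr : 0 < r) (hz : ContDiff ℝ 2 z) (h0 : ∀ y ∈ closedBall x r, ‖z y‖ ≤ M0)
    (h2 : ∀ y, ‖fderiv ℝ (fderiv ℝ z) y‖ ≤ M2) : ‖fderiv ℝ z x‖ ≤ 2 * M0 / r + M2 * r := by
  have hx : x ∈ closedBall x r := mem_closedBall_self hr.le
  have hM0 : 0 ≤ M0 := (norm_nonneg _).trans (h0 x hx)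
  have hM2 : 0 ≤ M2 := le_trans (norm_nonneg (fderiv ℝ (fderiv ℝ z) x)) (h2 x)
  have hL : ∀ y ∈ closedBall x r, ‖fderiv ℝ z y - fderiv ℝ z x‖ ≤ M2 * r := fun y hy =>
    ((convex_closedBall x r).norm_image_sub_le_of_norm_fderiv_le (f := fderiv ℝ z)
      (fun w _ => (hz.contDiffAt.fderiv_right (m := 1) (by norm_num)).differentiableAt one_ne_zero)
      (fun y _ => h2 y) hx hy).trans
      (mul_le_mul_of_nonneg_left (by rwa [mem_closedBall, dist_eq_norm] at hy) hM2)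
  have key : ∀ e : E n, ‖e‖ = r → ‖fderiv ℝ z x e‖ ≤ 2 * M0 + M2 * r * r := fun e he => by
    have hy : x + e ∈ closedBall x r := by simp [he]
    have h3 := (convex_closedBall x r).norm_image_sub_le_of_norm_fderiv_le'
      (fun w _ => hz.contDiffAt.differentiableAt (by norm_num)) hL hx hy
    rw [add_sub_cancel_left, he] at h3
    have h4 := (norm_sub_le (z (x + e)) (z x)).trans (add_le_add (h0 _ hy) (h0 _ hx))
    have h5 := norm_sub_norm_le (fderiv ℝ z x e) (z (x + e) - z x)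
    rw [norm_sub_rev (fderiv ℝ z x e)] at h5
    linarith
  refine (fderiv ℝ z x).opNorm_le_bound (by positivity) fun v => ?_
  by_cases hv : v = 0
  · simp [hv]
  · have hv' : 0 < ‖v‖ := norm_pos_iff.2 hv
    have h1 := key ((r / ‖v‖) • v) (by
      rw [norm_smul, Real.norm_of_nonneg (by positivity)]; field_simp)
    rw [map_smul, norm_smul, Real.norm_of_nonneg (by positivity)] at h1
    have : ‖fderiv ℝ z x v‖ = (‖v‖ / r) * (r / ‖v‖ * ‖fderiv ℝ z x v‖) := by field_simp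
    rw [this]
    calc (‖v‖ / r) * (r / ‖v‖ * ‖fderiv ℝ z x v‖) ≤ (‖v‖ / r) * (2 * M0 + M2 * r * r) := by gcongr
      _ = (2 * M0 / r + M2 * r) * ‖v‖ := by field_simp

/-- exponential decay at infinity -/
def ExpD {F : Type} [NormedAddCommGroup F] (u : E n → F) : Prop :=
  ∃ a D R : ℝ, 0 < a ∧ 0 ≤ D ∧ ∀ x, R ≤ ‖x‖ → ‖u x‖ ≤ D * Real.exp (-a * ‖x‖)

theorem ExpD.fderiv {F : Type} [NormedAddCommGroup F] [NormedSpace ℝ F] {u : E n → F}
    (h : ExpD u) (hu : ContDiff ℝ 2 u) {B : ℝ} (hB : ∀ y, ‖fderiv ℝ (fderiv ℝ u) y‖ ≤ B) :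
    ExpD (fderiv ℝ u) := by
  obtain ⟨a, D, R, ha, hD, h⟩ := h
  have hB0 : 0 ≤ B := le_trans (norm_nonneg (_root_.fderiv ℝ (_root_.fderiv ℝ u) 0)) (hB 0)
  refine ⟨a / 2, 2 * (D * Real.exp a) + B, R + 1, half_pos ha, by positivity, fun x hx => ?_⟩
  have hr : 0 < Real.exp (-(a / 2) * ‖x‖) := Real.exp_pos _
  have hr1 : Real.exp (-(a / 2) * ‖x‖) ≤ 1 :=
    Real.exp_le_one_iff.2 (by nlinarith [norm_nonneg x])
  have h1 := landau (M0 := D * Real.exp a * Real.exp (-a * ‖x‖)) hr hu (x := x)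
    (fun y hy => by
      rw [mem_closedBall, dist_eq_norm] at hy
      have h2 := norm_sub_norm_le x y
      rw [norm_sub_rev] at h2
      refine (h y (by linarith)).trans ?_
      rw [mul_assoc, ← Real.exp_add]
      gcongr
      nlinarith) hB
  refine h1.trans (le_of_eq ?_)
  have e : Real.exp (-a * ‖x‖) = Real.exp (-(a / 2) * ‖x‖) * Real.exp (-(a / 2) * ‖x‖) := by
    rw [← Real.exp_add]; congr 1; ring
  rw [e]
  field_simp

theorem norm_fderiv_two {F : Type} [NormedAddCommGroup F] [NormedSpace ℝ F] (u : E n → F)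
    (x : E n) : ‖fderiv ℝ (fderiv ℝ u) x‖ = ‖iteratedFDeriv ℝ 2 u x‖ := by
  rw [← norm_iteratedFDeriv_one, norm_iteratedFDeriv_fderiv]

/-- a bounded smooth function that decays exponentially does so with two derivatives; the bound
is below any negative power. -/
theorem decay_two {f : E n → ℝ} {B : ℕ → ℝ} (hf : Bdd B f) (h : ExpD f) (k ε : ℝ) (hε : 0 < ε) :
    ∃ R : ℝ, ∀ x : E n, R ≤ ‖x‖ → ∀ j ≤ 2,
      ‖iteratedFDeriv ℝ j f x‖ ≤ ε * (1 + ‖x‖ ^ 2) ^ (-k) := by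
  have h1 : ExpD (fderiv ℝ f) := h.fderiv (hf.1.of_le (by norm_cast)) (B := B 2) fun y => by
    rw [norm_fderiv_two]; exact hf.2 2 y
  have h2 : ExpD (fderiv ℝ (fderiv ℝ f)) :=
    h1.fderiv (hf.1.fderiv_right (by norm_cast)) (B := B 3) fun y => by
      rw [norm_fderiv_two, norm_iteratedFDeriv_fderiv]; exact hf.2 3 y
  have key : ∀ a D : ℝ, 0 < a → 0 ≤ D → ∃ R : ℝ, ∀ r, R ≤ r →
      D * Real.exp (-a * r) ≤ ε * (1 + r ^ 2) ^ (-k) := by
    intro a D ha hD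
    have h3 := (tendsto_rpow_mul_exp_neg_mul_atTop_nhds_zero (2 * |k|) a ha).const_mul
      (D * 2 ^ |k|)
    rw [mul_zero] at h3
    obtain ⟨R, hR⟩ := eventually_atTop.1 ((h3.eventually (gt_mem_nhds hε)).and
      (eventually_ge_atTop 1))
    refine ⟨R, fun r hr => ?_⟩
    obtain ⟨h4, h5⟩ := hR r hr
    have h6 : (1 + r ^ 2) ^ k ≤ 2 ^ |k| * r ^ (2 * |k|) := by
      have h7 : (1:ℝ) ≤ 1 + r ^ 2 := by nlinarith
      refine (Real.rpow_le_rpow_of_exponent_le h7 (le_abs_self k)).trans ?_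
      rw [Real.rpow_mul (by linarith), ← Real.mul_rpow (by norm_num) (by positivity)]
      gcongr
      rw [Real.rpow_two]
      nlinarith
    rw [Real.rpow_neg (by positivity), ← div_eq_mul_inv, le_div_iff₀ (by positivity)]
    calc D * Real.exp (-a * r) * (1 + r ^ 2) ^ k
        ≤ D * Real.exp (-a * r) * (2 ^ |k| * r ^ (2 * |k|)) := by gcongr
      _ = D * 2 ^ |k| * (r ^ (2 * |k|) * Real.exp (-a * r)) := by ring
      _ ≤ ε := h4.le
  obtain ⟨a0, D0, R0, ha0, hD0, h0⟩ := h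
  obtain ⟨a1, D1, R1, ha1, hD1, h1⟩ := h1
  obtain ⟨a2, D2, R2, ha2, hD2, h2⟩ := h2
  obtain ⟨S0, k0⟩ := key a0 D0 ha0 hD0
  obtain ⟨S1, k1⟩ := key a1 D1 ha1 hD1
  obtain ⟨S2, k2⟩ := key a2 D2 ha2 hD2
  refine ⟨max (max (max R0 S0) (max R1 S1)) (max R2 S2), fun x hx j hj => ?_⟩
  simp only [max_le_iff] at hx
  interval_cases j
  · rw [norm_iteratedFDeriv_zero]
    exact (h0 x hx.1.1.1).trans (k0 _ hx.1.1.2)
  · rw [norm_iteratedFDeriv_one]
    exact (h1 x hx.1.2.1).trans (k1 _ hx.1.2.2)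
  · rw [← norm_fderiv_two]
    exact (h2 x hx.2.1).trans (k2 _ hx.2.2)

/-- cutting off by `η_R`, `R ≥ 1`, changes two-jets by a bounded factor. -/
theorem exists_cut_bound (n : ℕ) : ∃ c : ℝ, 1 ≤ c ∧ ∀ R : ℝ, 1 ≤ R → ∀ (f : E n → ℝ) (x : E n)
    (σ : ℝ), ContDiff ℝ ∞ f → (∀ j ≤ 2, ‖iteratedFDeriv ℝ j f x‖ ≤ σ) →
    ∀ j ≤ 2, ‖iteratedFDeriv ℝ j (fun y => eta R y * f y) x‖ ≤ c * σ := by
  obtain ⟨C0, h0, k0⟩ := Bs.exists_eta_bound n 0
  obtain ⟨C1, h1, k1⟩ := Bs.exists_eta_bound n 1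
  obtain ⟨C2, h2, k2⟩ := Bs.exists_eta_bound n 2
  refine ⟨1 + 4 * (C0 + C1 + C2), by linarith, fun R hR f x σ hf hσ j hj => ?_⟩
  have hR0 : 0 < R := by linarith
  have hσ0 : 0 ≤ σ := (norm_nonneg _).trans (hσ 0 (by norm_num))
  have hη : ∀ i ≤ 2, ‖iteratedFDeriv ℝ i (eta R) x‖ ≤ C0 + C1 + C2 := by
    intro i hi
    interval_cases i
    · exact ((k0 R hR0 x).trans (div_le_self h0 (one_le_pow₀ hR))).trans (by linarith)
    · exact ((k1 R hR0 x).trans (div_le_self h1 (one_le_pow₀ hR))).trans (by linarith)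
    · exact ((k2 R hR0 x).trans (div_le_self h2 (one_le_pow₀ hR))).trans (by linarith)
  refine (norm_iteratedFDeriv_mul_le (Bs.contDiff_eta R) hf x (by exact_mod_cast le_top)).trans ?_
  have h3 : ∑ i ∈ Finset.range (j + 1), (j.choose i : ℝ) * ‖iteratedFDeriv ℝ i (eta R) x‖ *
      ‖iteratedFDeriv ℝ (j - i) f x‖ ≤
      ∑ i ∈ Finset.range (j + 1), (j.choose i : ℝ) * ((C0 + C1 + C2) * σ) := by
    refine Finset.sum_le_sum fun i hi => ?_
    rw [Finset.mem_range] at hi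
    rw [mul_assoc]
    gcongr
    · exact hη i (by omega)
    · exact hσ _ (by omega)
  refine h3.trans ?_
  rw [← Finset.sum_mul, ← Nat.cast_sum, Nat.sum_range_choose]
  have h4 : ((2 ^ j : ℕ) : ℝ) ≤ 4 := by
    have : 2 ^ j ≤ 2 ^ 2 := Nat.pow_le_pow_right (by norm_num) hj
    exact_mod_cast this
  have h5 : 0 ≤ (C0 + C1 + C2) * σ := by positivity
  nlinarith

/-- the Hessian of a conformally flat metric. -/
theorem abs_hess_le {g : MetricField n} {ψ u : E n → ℝ} {U : Set (E n)} {x : E n}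
    (h : Conf (fun _ => 1) g ψ U) (hx : x ∈ U) {c σ : ℝ} (hψ : ‖fderiv ℝ ψ x‖ ≤ c)
    (h1 : ‖iteratedFDeriv ℝ 1 u x‖ ≤ σ) (h2 : ‖iteratedFDeriv ℝ 2 u x‖ ≤ σ) (Y Z : E n) :
    |hess g u x Y Z| ≤ (1 + 3 * c) * σ * ‖Y‖ * ‖Z‖ := by
  rw [norm_iteratedFDeriv_one] at h1
  rw [← norm_fderiv_two] at h2
  have hc : 0 ≤ c := (norm_nonneg _).trans hψ
  have hσ : 0 ≤ σ := (norm_nonneg _).trans h1
  have hone : IsRiemannianOn (fun _ : E n => (1 : Matrix (Fin n) (Fin n) ℝ)) univ :=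
    riem_const Matrix.PosDef.one
  have b1 : ∀ A : E n, bil (1 : Matrix (Fin n) (Fin n) ℝ) A A = ‖A‖ ^ 2 := fun A => by
    rw [bil_eq_mat, mat_one, Bs.norm_sq_eq]
  have e1 : |bil (1 : Matrix (Fin n) (Fin n) ℝ) Y Z| ≤ ‖Y‖ * ‖Z‖ := by
    have := bil_sq_le hone (mem_univ x) Y Z
    rw [b1, b1, ← mul_pow] at this
    exact abs_le_of_sq_le_sq' this (by positivity) |>.elim fun a b => abs_le.2 ⟨a, b⟩
  have e2 : |gam (fun _ : E n => (1 : Matrix (Fin n) (Fin n) ℝ)) u ψ x| ≤ σ * c := by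
    have h3 := gam_sq_le hone (mem_univ x) u ψ
    have h4 : ∀ v : E n → ℝ, gam (fun _ : E n => (1 : Matrix (Fin n) (Fin n) ℝ)) v v x
        ≤ ‖fderiv ℝ v x‖ ^ 2 := fun v => by
      have := Bs.gradSq_le hone (x := x) one_pos (fun w => by rw [quadForm_eq, b1, one_mul]) v
      rw [← gradSq_eq_gam]
      simpa using this
    have h5 : gam (fun _ : E n => (1 : Matrix (Fin n) (Fin n) ℝ)) u ψ x ^ 2 ≤ (σ * c) ^ 2 := by
      refine h3.trans ?_
      rw [mul_pow]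
      exact mul_le_mul ((h4 u).trans (by gcongr)) ((h4 ψ).trans (by gcongr))
        (gam_self_nonneg hone (mem_univ x) ψ) (by positivity)
    exact abs_le_of_sq_le_sq' h5 (by positivity) |>.elim fun a b => abs_le.2 ⟨a, b⟩
  have e3 : |fderiv ℝ (fderiv ℝ u) x Y Z| ≤ σ * ‖Y‖ * ‖Z‖ :=
    ((fderiv ℝ (fderiv ℝ u) x).le_opNorm₂ Y Z).trans (by gcongr)
  have e4 : ∀ A B : E n, |fderiv ℝ ψ x A * fderiv ℝ u x B| ≤ c * ‖A‖ * (σ * ‖B‖) := fun A B => by
    rw [abs_mul]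
    exact mul_le_mul (((fderiv ℝ ψ x).le_opNorm A).trans (by gcongr))
      (((fderiv ℝ u x).le_opNorm B).trans (by gcongr)) (abs_nonneg _) (by positivity)
  have e5 : |bil (1 : Matrix (Fin n) (Fin n) ℝ) Y Z *
      gam (fun _ : E n => (1 : Matrix (Fin n) (Fin n) ℝ)) u ψ x| ≤ ‖Y‖ * ‖Z‖ * (σ * c) := by
    rw [abs_mul]
    exact mul_le_mul e1 e2 (abs_nonneg _) (by positivity)
  rw [h.hess_eq hx, hess_const]
  have e6 := e4 Y Z
  have e7 := e4 Z Y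
  rw [abs_le] at e3 e5 e6 e7 ⊢
  constructor <;> nlinarith [e3.1, e3.2, e5.1, e5.2, e6.1, e6.2, e7.1, e7.2]

/-- **far estimate**: where `φ = 1`, the conformal operator of `ḡ` is close to that of `g`. -/
theorem far_est (n : ℕ) (C C0 Bz : ℝ) (hC : 1 ≤ C) (hC0 : 0 ≤ C0) (hBz : 0 ≤ Bz) :
    ∃ K : ℝ, 0 ≤ K ∧ ∀ (g : MetricField n) (φ f z : E n → ℝ) (x : E n) (σ α : ℝ),
    Jd g φ f univ → ContDiffAt ℝ 2 z x → (φ =ᶠ[𝓝 x] fun _ => 1) → 0 < σ → |α| ≤ 1 →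
    (∀ v, C⁻¹ * ‖v‖ ^ 2 ≤ quadForm g x v) →
    (∀ w, quadForm g x w ≤ 1 → |bil (ricM g x) w w| ≤ C0) →
    ‖fderiv ℝ f x‖ ≤ σ → (∀ Y Z, |hess g f x Y Z| ≤ σ * ‖Y‖ * ‖Z‖) →
    ‖fderiv ℝ z x‖ ≤ Bz → (∀ Y Z, |hess g z x Y Z| ≤ Bz * ‖Y‖ * ‖Z‖) →
    sq g φ f x ≤ C * σ ^ 2 ∧
    |(scalarCurv (gb g φ f) x - 2 * laplaceBeltrami (gb g φ f) z x - α * gam (gb g φ f) z z x)
      - (scalarCurv g x - 2 * laplaceBeltrami g z x - α * gam g z z x)| ≤ K * σ ^ 2 := by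
  refine ⟨2 * C0 * C + (2 * n + 1) * (n * C) ^ 2 + 2 * Bz * C ^ 2 + 2 * Bz ^ 2 * C ^ 2,
    by positivity, fun g φ f z x σ α hd hz hφ hσ hα hlo hric hf1 hf2 hz1 hz2 => ?_⟩
  have hx := mem_univ x
  have hC0' : 0 < C := by linarith
  have hφ0 : φ x = 1 := hφ.self_of_nhds
  have hφ1 : fderiv ℝ φ x = 0 := by rw [hφ.fderiv_eq, fderiv_fun_const, Pi.zero_apply]
  have ha : aa g φ f x = 0 := by rw [aa, hd.fderiv_lv hx, hφ1]; simp
  have hV : gam (gb g φ f) z (lv φ) x = 0 := by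
    rw [gam_eq_fderiv_grad' hd.riemb hx, hd.fderiv_lv hx, hφ1]; simp
  have hlap : laplaceBeltrami g φ x = 0 := by rw [lap_congr hφ, lap_const]
  have hhess : ∀ A B, hess g φ x A B = 0 := fun A B => by
    rw [hess_congr hφ, hess_apply]; simp
  set w := wv g φ f x with hw
  have hs : sq g φ f x ≤ C * σ ^ 2 := by
    have := Bs.gradSq_le hd.riem (x := x) (inv_pos.2 hC0') hlo f
    rw [Id.sq, hφ0, one_pow, one_mul, ← gradSq_eq_gam]
    refine this.trans ?_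
    rw [inv_inv]
    gcongr
  refine ⟨hs, ?_⟩
  have hp : bil (g x) w w ≤ C * σ ^ 2 := by
    rw [hw, hd.bil_wv_wv hx]; exact (hd.pp_le_sq hx).trans hs
  have hwn : ‖w‖ ^ 2 ≤ C ^ 2 * σ ^ 2 := by
    have := hlo w
    rw [quadForm_eq, inv_mul_le_iff₀ hC0'] at this
    nlinarith
  have hR : |bil (ricM g x) w w| ≤ C0 * (C * σ ^ 2) := by
    set t := Real.sqrt (C * σ ^ 2) with ht
    have ht0 : 0 < t := Real.sqrt_pos.2 (by positivity)
    have ht2 : t ^ 2 = C * σ ^ 2 := Real.sq_sqrt (by positivity)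
    have h1 := hric (t⁻¹ • w) (by
      rw [quadForm_eq, map_smul, map_smul, smul_apply, smul_eq_mul, smul_eq_mul, ← mul_assoc,
        ← _root_.sq, inv_pow, ht2, inv_mul_le_iff₀ (by positivity)]
      linarith)
    rw [map_smul, map_smul, smul_apply, smul_eq_mul, smul_eq_mul, ← mul_assoc, ← _root_.sq,
      inv_pow, ht2, abs_mul, abs_of_pos (by positivity), inv_mul_le_iff₀ (by positivity)] at h1
    linarith
  have hh1 : ∀ Y Z, |bil (hh g φ f x) Y Z| ≤ σ * ‖Y‖ * ‖Z‖ := fun Y Z => by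
    rw [bil_hh, hφ0, hφ1, abs_div, abs_of_pos (hd.gm_pos hx)]
    simp only [one_mul, zero_apply, zero_mul, add_zero]
    exact (div_le_self (abs_nonneg _) (hd.one_le_gm hx)).trans (hf2 Y Z)
  have hsym := hd.symT_hh.symm x hx
  have hN : normSqK (gb g φ f) (hh g φ f) x ≤ (n * C * σ) ^ 2 :=
    (hd.normSqK_gb_le hx hsym).trans (normSqK_le_of_bound hd.riem hx hsym hC0' hlo hh1)
  have hN0 := normSqK_nonneg hd.riemb hx hsym
  have hH : H0 g φ f x ^ 2 ≤ n * (n * C * σ) ^ 2 :=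
    (traceK_sq_le hd.riemb hx hsym).trans (by gcongr)
  have hzw : fderiv ℝ z x w ^ 2 ≤ Bz ^ 2 * (C ^ 2 * σ ^ 2) := by
    have h1 : |fderiv ℝ z x w| ≤ Bz * ‖w‖ := ((fderiv ℝ z x).le_opNorm w).trans (by gcongr)
    have h2 := pow_le_pow_left₀ (abs_nonneg _) h1 2
    rw [sq_abs, mul_pow] at h2
    exact h2.trans (by gcongr)
  have hzz : |hess g z x w w| ≤ Bz * (C ^ 2 * σ ^ 2) := by
    refine (hz2 w w).trans ?_
    rw [mul_assoc, ← _root_.sq]
    gcongr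
  have hαz : |α * fderiv ℝ z x w ^ 2| ≤ Bz ^ 2 * (C ^ 2 * σ ^ 2) := by
    rw [abs_mul, abs_of_nonneg (sq_nonneg (fderiv ℝ z x w))]
    exact (mul_le_of_le_one_left (sq_nonneg _) hα).trans hzw
  rw [hd.id_G' hx, hd.lap_gb hx hz, hd.traceK_gb hx, ← lap_eq_traceK hd.riem hx hz, bil_hessM,
    hV, hd.gam_gb hx, ha, hlap, hhess, ← hw]
  simp only [mul_zero, zero_mul, sub_zero, add_zero, zero_div]
  rw [abs_le] at hR hzz hαz ⊢
  have hn0 : (0:ℝ) ≤ n := Nat.cast_nonneg n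
  constructor <;>
    nlinarith [hR.1, hR.2, hzz.1, hzz.2, hαz.1, hαz.2, sq_nonneg (H0 g φ f x + fderiv ℝ z x w),
      sq_nonneg (H0 g φ f x - fderiv ℝ z x w), sq_nonneg (H0 g φ f x),
      mul_nonneg hn0 (sq_nonneg (n * C * σ))]

end Crest.Agent.N346.P1.Out

end
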