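import Crest.Agent.N346.Basic2

/-!
Row 346, Part 1.8 (helper90), file B: the conformal factor `U = exp (y₁ + c ψ)` at infinity
(limit, Dirichlet energy, Hardy integral, flux).
-/

set_option autoImplicit false

open scoped ContDiff Topology
open Filter Set MeasureTheory
open Crest.GeometryTopology.CoordMetric Crest.MathPhysics.ExteriorData

noncomputable section

namespace Crest.Agent.N346.P1.Out

variable {n : ℕ} {a : ℝ} {y y' : E n → ℝ}

/-- smooth, decaying like `r^{-a}`, with finite Dirichlet energy -/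
structure Hd (a : ℝ) (y : E n → ℝ) : Prop where
  smooth : ContDiff ℝ ∞ y
  dec : ∃ D : ℝ, 0 ≤ D ∧ ∀ x, |y x| ≤ D * (1 + ‖x‖) ^ (-a)
  grad : ∀ i, Integrable fun x => pderiv i y x ^ 2

theorem integrable_pd_sq (hy : ContDiff ℝ ∞ y) (h : Integrable fun x => ∑ i, pderiv i y x ^ 2)
    (i : Fin n) : Integrable fun x => pderiv i y x ^ 2 :=
  h.mono' ((Bs.contDiff_pd hy i).continuous.pow 2).aestronglyMeasurable (.of_forall fun x => by
    rw [Real.norm_of_nonneg (sq_nonneg _)]
    exact Finset.single_le_sum (f := fun i => pderiv i y x ^ 2) (fun _ _ => sq_nonneg _)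
      (Finset.mem_univ i))

theorem Hd.add (h : Hd a y) (h' : Hd a y') : Hd a fun x => y x + y' x := by
  obtain ⟨D, hD, hd⟩ := h.dec
  obtain ⟨D', hD', hd'⟩ := h'.dec
  refine ⟨h.smooth.add h'.smooth, ⟨D + D', by positivity, fun x => ?_⟩, fun i => ?_⟩
  · exact (abs_add_le _ _).trans (by linarith [hd x, hd' x])
  · refine (((h.grad i).add (h'.grad i)).const_mul 2).mono'
      ((Bs.contDiff_pd (h.smooth.add h'.smooth) i).continuous.pow 2).aestronglyMeasurable
      (.of_forall fun x => ?_)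
    rw [Real.norm_of_nonneg (sq_nonneg _),
      Bs.pd_add (Bs.smooth_diff h.smooth x) (Bs.smooth_diff h'.smooth x)]
    simp only [Pi.add_apply]
    nlinarith [sq_nonneg (pderiv i y x - pderiv i y' x)]

theorem Hd.const_mul (h : Hd a y) (c : ℝ) : Hd a fun x => c * y x := by
  obtain ⟨D, hD, hd⟩ := h.dec
  refine ⟨contDiff_const.mul h.smooth, ⟨|c| * D, by positivity, fun x => ?_⟩, fun i => ?_⟩
  · rw [abs_mul, mul_assoc]
    gcongr
    exact hd x
  · simp only [Bs.pd_const_mul, mul_pow]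
    exact (h.grad i).const_mul _

theorem Hd.bdd (h : Hd a y) (ha : 0 ≤ a) : ∃ D : ℝ, ∀ x, |y x| ≤ D := by
  obtain ⟨D, hD, hd⟩ := h.dec
  exact ⟨D, fun x => (hd x).trans (mul_le_of_le_one_right hD
    (Real.rpow_le_one_of_one_le_of_nonpos (by linarith [norm_nonneg x]) (by linarith)))⟩

theorem pd_exp (hy : ContDiff ℝ ∞ y) (i : Fin n) (x : E n) :
    pderiv i (fun x => Real.exp (y x)) x = Real.exp (y x) * pderiv i y x :=
  Bs.pd_comp (Real.hasDerivAt_exp _) (Bs.smooth_diff hy x) i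

theorem abs_exp_sub_one_le {t D : ℝ} (h : |t| ≤ D) : |Real.exp t - 1| ≤ Real.exp D * |t| := by
  have h1 : 1 ≤ Real.exp D := Real.one_le_exp ((abs_nonneg t).trans h)
  rcases le_total 0 t with ht | ht
  · rw [abs_of_nonneg ht] at h ⊢
    rw [abs_of_nonneg (by linarith [Real.one_le_exp ht])]
    have h2 := Real.add_one_le_exp (-t)
    have h3 : Real.exp t * Real.exp (-t) = 1 := by rw [← Real.exp_add]; simp
    have h4 : Real.exp t ≤ Real.exp D := Real.exp_le_exp.2 h
    nlinarith [Real.exp_pos t]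
  · rw [abs_of_nonpos ht, abs_of_nonpos (by linarith [Real.exp_le_one_iff.2 ht])]
    nlinarith [Real.add_one_le_exp t]

theorem Hd.exp_sub_one (h : Hd a y) (ha : 0 ≤ a) : Hd a fun x => Real.exp (y x) - 1 := by
  obtain ⟨D, hD, hd⟩ := h.dec
  obtain ⟨D', hd'⟩ := h.bdd ha
  refine ⟨h.smooth.exp.sub contDiff_const, ⟨Real.exp D' * D, by positivity, fun x => ?_⟩,
    fun i => ?_⟩
  · refine (abs_exp_sub_one_le (hd' x)).trans ?_
    rw [mul_assoc]
    gcongr
    exact hd x
  · refine ((h.grad i).const_mul (Real.exp D' ^ 2)).mono'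
      ((Bs.contDiff_pd (h.smooth.exp.sub contDiff_const) i).continuous.pow 2).aestronglyMeasurable
      (.of_forall fun x => ?_)
    rw [Real.norm_of_nonneg (sq_nonneg _), Bs.pd_sub_const, pd_exp h.smooth, mul_pow]
    gcongr
    exact (le_abs_self _).trans (hd' x)

theorem Hd.tendsto (h : Hd a y) (ha : 0 < a) : Tendsto y (cocompact (E n)) (𝓝 0) := by
  obtain ⟨D, hD, hd⟩ := h.dec
  have h1 : Tendsto (fun x : E n => 1 + ‖x‖) (cocompact (E n)) atTop :=
    tendsto_atTop_add_const_left _ _ (tendsto_norm_cocompact_atTop (E := E n))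
  have h2 := ((tendsto_rpow_neg_atTop ha).comp h1).const_mul D
  rw [mul_zero] at h2
  exact squeeze_zero_norm (fun x => hd x) h2

theorem Hd.hardy' (h : Hd a y) (ha : (n : ℝ) < 2 * a + 2) :
    Integrable fun x => (y x / (1 + ‖x‖)) ^ 2 := by
  obtain ⟨D, hD, hd⟩ := h.dec
  have h1 : Integrable fun x : E n => (1 + ‖x‖) ^ (-(2 * a + 2)) :=
    integrable_one_add_norm (by simpa using ha)
  refine (h1.const_mul (D ^ 2)).mono'
    ((h.smooth.continuous.div (by fun_prop) fun x => by positivity).pow 2).aestronglyMeasurable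
    (.of_forall fun x => ?_)
  have h2 : (0:ℝ) < 1 + ‖x‖ := by positivity
  have h3 : (1 + ‖x‖) ^ (-(2 * a + 2)) = ((1 + ‖x‖) ^ (-a) / (1 + ‖x‖)) ^ 2 := by
    rw [← Real.rpow_sub_one h2.ne', ← Real.rpow_natCast, ← Real.rpow_mul h2.le]
    congr 1
    push_cast
    ring
  rw [Real.norm_of_nonneg (sq_nonneg _), h3, ← mul_pow, ← sq_abs, abs_div, abs_of_pos h2,
    ← mul_div_assoc]
  gcongr
  exact hd x

theorem Hd.hardy (h : Hd a y) (ha : (n : ℝ) < 2 * a + 2) :
    Integrable fun x => y x ^ 2 / (1 + ‖x‖ ^ 2) := by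
  refine ((h.hardy' ha).const_mul 2).mono'
    ((h.smooth.continuous.pow 2).div (by fun_prop) fun x => by positivity).aestronglyMeasurable
    (.of_forall fun x => ?_)
  rw [Real.norm_of_nonneg (by positivity), div_pow, ← mul_div_assoc,
    div_le_div_iff₀ (by positivity) (by positivity)]
  nlinarith [mul_nonneg (sq_nonneg (y x)) (sq_nonneg (1 - ‖x‖))]

theorem Hd.cross (h : Hd a y) (ha : (n : ℝ) < 2 * a + 2) {v : E n → ℝ} (hv : ContDiff ℝ ∞ v)
    (hg : ∀ i, Integrable fun x => pderiv i v x ^ 2) :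
    Tendsto (fun R => ∑ i, ∫ x, pderiv i (eta R) x * (y x * pderiv i v x)) atTop (𝓝 0) := by
  have key : ∀ i, Tendsto (fun R => ∫ x, pderiv i (eta R) x * (y x * pderiv i v x)) atTop
      (𝓝 0) := fun i => by
    have hc : Continuous fun x => y x * pderiv i v x :=
      h.smooth.continuous.mul (Bs.contDiff_pd hv i).continuous
    refine Bs.tendsto_integral_pd_eta hc.aestronglyMeasurable ?_ i
    refine ((h.hardy' ha).add (hg i)).mono'
      (hc.div (by fun_prop) fun x => by positivity).aestronglyMeasurable (.of_forall fun x => ?_)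
    rw [mul_div_right_comm, Real.norm_eq_abs, abs_le]
    simp only [Pi.add_apply]
    constructor <;> nlinarith [sq_nonneg (y x / (1 + ‖x‖) - pderiv i v x),
      sq_nonneg (y x / (1 + ‖x‖) + pderiv i v x)]
  simpa using tendsto_finsetSum Finset.univ fun i _ => key i

theorem flux_exp_add {ψ : E n → ℝ} (h : Hd a y) (hψ : Hd a ψ) (ha0 : 0 ≤ a)
    (ha : (n : ℝ) < 2 * a + 2) {c ε b : ℝ} (hc : 0 ≤ c) (hl : Integrable (lap ψ))
    (hb : -∫ x, lap ψ x ≤ b) (hf : FluxLE (fun x => Real.exp (y x)) ε) :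
    FluxLE (fun x => Real.exp (y x + c * ψ x)) (ε + c * b) := by
  have hV := (hψ.const_mul c).exp_sub_one ha0
  have hU := (h.add (hψ.const_mul c)).exp_sub_one ha0
  have hu := h.exp_sub_one ha0
  have hug : ∀ i, Integrable fun x => pderiv i (fun x => Real.exp (y x)) x ^ 2 := fun i => by
    simpa only [Bs.pd_sub_const] using hu.grad i
  have c1 := hV.cross ha h.smooth.exp hug
  have c2 := (hU.cross ha hψ.smooth hψ.grad).const_mul c
  have c3 := (Bs.tendsto_flux (hψ.smooth.of_le (by norm_cast)) hl).const_mul c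
  have c4 := (c3.add c1).add c2
  rw [add_zero, mul_zero, add_zero] at c4
  have hsplit : ∀ R, 0 < R → flux (fun x => Real.exp (y x + c * ψ x)) R =
      flux (fun x => Real.exp (y x)) R + (c * flux ψ R
        + (∑ i, ∫ x, pderiv i (eta R) x *
          ((Real.exp (c * ψ x) - 1) * pderiv i (fun x => Real.exp (y x)) x))
        + c * ∑ i, ∫ x, pderiv i (eta R) x *
          ((Real.exp (y x + c * ψ x) - 1) * pderiv i ψ x)) := by
    intro R hR
    have hI : ∀ (i : Fin n) {F : E n → ℝ}, Continuous F →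
        Integrable fun x => pderiv i (eta R) x * F x := fun i F hF =>
      ((Bs.contDiff_pd (Bs.contDiff_eta R) i).continuous.mul hF).integrable_of_hasCompactSupport
        (Bs.hasCompactSupport_pd (Bs.hasCompactSupport_eta hR) i).mul_right
    have hF : ∀ {F : E n → ℝ}, ContDiff ℝ ∞ F →
        flux F R = ∑ i, ∫ x, pderiv i (eta R) x * pderiv i F x := fun {F} hF => by
      rw [flux, ← integral_finsetSum _ fun i _ => hI i (Bs.contDiff_pd hF i).continuous]
      simp only [mul_comm]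
    rw [hF (h.add (hψ.const_mul c)).smooth.exp, hF h.smooth.exp, hF hψ.smooth, Finset.mul_sum,
      Finset.mul_sum, ← Finset.sum_add_distrib, ← Finset.sum_add_distrib, ← Finset.sum_add_distrib]
    refine Finset.sum_congr rfl fun i _ => ?_
    have i1 := hI i (Bs.contDiff_pd h.smooth.exp i).continuous
    have i2 := (hI i (Bs.contDiff_pd hψ.smooth i).continuous).const_mul c
    have i3 := hI i (hV.smooth.mul (Bs.contDiff_pd h.smooth.exp i)).continuous
    have i4 := (hI i (hU.smooth.mul (Bs.contDiff_pd hψ.smooth i)).continuous).const_mul c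
    rw [← integral_const_mul, ← integral_const_mul, ← integral_add' i2 i3,
      ← integral_add' (i2.add i3) i4, ← integral_add' i1 ((i2.add i3).add i4)]
    refine integral_congr_ae (.of_forall fun x => ?_)
    simp only [Pi.add_apply]
    rw [pd_exp (h.add (hψ.const_mul c)).smooth, pd_exp h.smooth,
      Bs.pd_add (Bs.smooth_diff h.smooth x) (Bs.smooth_diff (hψ.const_mul c).smooth x),
      Bs.pd_const_mul, Real.exp_add]
    ring
  intro δ hδ
  obtain ⟨R0, hR0⟩ := hf (δ / 2) (half_pos hδ)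
  have h5 : c * -∫ x, lap ψ x < c * b + δ / 2 := by
    have := mul_le_mul_of_nonneg_left hb hc
    linarith
  obtain ⟨R1, hR1⟩ := eventually_atTop.1 ((c4.eventually (gt_mem_nhds h5)).and
    (eventually_gt_atTop 0))
  refine ⟨max R0 R1, fun R hR => ?_⟩
  have h6 := hR0 R ((le_max_left _ _).trans hR)
  obtain ⟨h7, h8⟩ := hR1 R ((le_max_right _ _).trans hR)
  rw [hsplit R h8]
  linarith

/-- the background conformal factor. -/
theorem hd_psi (hn : 3 ≤ n) {ψ : E n → ℝ} (hψ : ContDiff ℝ ∞ ψ) {C : ℝ} (hC : 0 ≤ C)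
    (h : ∀ k : ℕ, k ≤ 2 → ∀ x,
      ‖iteratedFDeriv ℝ k ψ x‖ ≤ C * (1 + ‖x‖) ^ (2 - (n : ℝ) - (k : ℝ))) :
    Hd (3 * ((n : ℝ) - 2) / 4) ψ := by
  have h3 : (3 : ℝ) ≤ n := by exact_mod_cast hn
  refine ⟨hψ, ⟨C, hC, fun x => ?_⟩, fun i => ?_⟩
  · have := h 0 (by norm_num) x
    rw [norm_iteratedFDeriv_zero, Real.norm_eq_abs] at this
    refine this.trans (mul_le_mul_of_nonneg_left
      (Real.rpow_le_rpow_of_exponent_le (by linarith [norm_nonneg x]) ?_) hC)
    push_cast
    linarith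
  · have h1 : Integrable fun x : E n => (1 + ‖x‖) ^ (-(2 * (n : ℝ) - 2)) :=
      integrable_one_add_norm (by simp; linarith)
    refine (h1.const_mul (C ^ 2)).mono'
      ((Bs.contDiff_pd hψ i).continuous.pow 2).aestronglyMeasurable (.of_forall fun x => ?_)
    have h2 := h 1 (by norm_num) x
    rw [norm_iteratedFDeriv_one] at h2
    have h4 : (1 + ‖x‖) ^ (-(2 * (n : ℝ) - 2)) = ((1 + ‖x‖) ^ (2 - (n : ℝ) - ((1 : ℕ) : ℝ))) ^ 2 := by
      rw [← Real.rpow_natCast, ← Real.rpow_mul (by positivity)]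
      congr 1
      push_cast
      ring
    rw [Real.norm_of_nonneg (sq_nonneg _), h4, ← mul_pow, ← sq_abs]
    gcongr
    exact (Bs.abs_pd_le i ψ x).trans h2

/-- the solution `z`. -/
theorem hd_z {z : E n → ℝ} (hz : ContDiff ℝ ∞ z) {B Λ : ℝ} (ha : 0 ≤ a) (hΛ : 1 ≤ Λ)
    (hB : ∀ x, |z x| ≤ B) (hfar : ∀ x, Λ ≤ ‖x‖ → |z x| ≤ Λ * ‖x‖ ^ (-a))
    (hg : Integrable fun x => ∑ i, pderiv i z x ^ 2) : Hd a z := by
  have hB0 : 0 ≤ B := (abs_nonneg _).trans (hB 0)
  refine ⟨hz, ⟨(B + Λ) * (1 + Λ) ^ a, by positivity, fun x => ?_⟩, integrable_pd_sq hz hg⟩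
  have h0 : (0:ℝ) < 1 + ‖x‖ := by positivity
  rw [Real.rpow_neg h0.le, ← div_eq_mul_inv, le_div_iff₀ (by positivity)]
  rcases le_total Λ ‖x‖ with hx | hx
  · have h1 : 0 < ‖x‖ := by linarith
    have h2 : (1 + ‖x‖) ^ a ≤ (1 + Λ) ^ a * ‖x‖ ^ a := by
      rw [← Real.mul_rpow (by positivity) h1.le]
      gcongr
      nlinarith
    have h3 := hfar x hx
    rw [Real.rpow_neg h1.le, ← div_eq_mul_inv, le_div_iff₀ (by positivity)] at h3
    calc |z x| * (1 + ‖x‖) ^ a ≤ |z x| * ((1 + Λ) ^ a * ‖x‖ ^ a) := by gcongr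
      _ = |z x| * ‖x‖ ^ a * (1 + Λ) ^ a := by ring
      _ ≤ (B + Λ) * (1 + Λ) ^ a := by gcongr; linarith
  · have := hB x
    gcongr
    linarith

end Crest.Agent.N346.P1.Out

end
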