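import Crest.Agent.N346.P1.Defs
import Crest.Agent.N346.Id.Jang2
import Crest.Agent.N346.Basic2

/-! Row 346, P1-S (helper41), part A: the barrier `y = -κ √(ρ - s)` and its Jang operator. -/

set_option autoImplicit false

open Filter Topology Set
open scoped ContDiff
open Crest.GeometryTopology.CoordMetric Crest.MathPhysics.ExteriorData
open Crest.Agent.R202.Tens Crest.Agent.R247.Bo84 Crest.Agent.N346.Id

noncomputable section

namespace Crest.Agent.N346.P1.St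

variable {n : ℕ} {g K : MetricField n} {s : E n → ℝ} {x : E n}

/-- `Hess s (∇s, ∇s)` -/
def Hss (g : MetricField n) (s : E n → ℝ) (x : E n) : ℝ := hess g s x (grad g s x) (grad g s x)
/-- `K (∇s, ∇s)` -/
def Kss (g K : MetricField n) (s : E n → ℝ) (x : E n) : ℝ := bil (K x) (grad g s x) (grad g s x)

theorem levelExp_eq (hg : IsRiemannianOn g univ) (hs : ContDiff ℝ ∞ s) (ha : 0 < gam g s s x) :
    levelExp g K s x = laplaceBeltrami g s x / √(gam g s s x) - Hss g s x / √(gam g s s x) ^ 3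
      - traceK g K x + Kss g K s x / √(gam g s s x) ^ 2 := by
  have hx : x ∈ (univ : Set (E n)) := trivial
  have hs2 : ContDiffAt ℝ 2 s x := hs.contDiffAt.of_le (by norm_cast)
  have hr : 0 < √(gam g s s x) := Real.sqrt_pos.2 ha
  have e : (fun y => (WithLp.toLp 2 (levelNormal g s y) : E n))
      = fun y => (√(gam g s s y))⁻¹ • grad g s y := by
    funext y; ext i
    simp [levelNormal, grad_apply, gradSq_eq_gam, div_eq_inv_mul]
  have hd : DifferentiableAt ℝ (gam g s s) x :=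
    (contDiffAt_gam hg hx hs.contDiffAt hs.contDiffAt (by simp) le_rfl).differentiableAt (by simp)
  have h1 : HasFDerivAt (fun y => (√(gam g s s y))⁻¹) _ x :=
    (hasDerivAt_inv hr.ne').comp_hasFDerivAt x (hd.hasFDerivAt.sqrt ha.ne')
  have h2 : gDiv g (levelNormal g s) x
      = laplaceBeltrami g s x / √(gam g s s x) - Hss g s x / √(gam g s s x) ^ 3 := by
    rw [gDiv_eq_divg, e, divg_smul hg hx h1.differentiableAt (differentiableAt_grad hg hx hs2),
      h1.fderiv, divg_grad]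
    simp only [smul_apply, fderiv_gam hg hx hs2 hs2, smul_eq_mul, Hss]
    field_simp
    ring
  rw [levelExp, h2]
  simp only [sub_mul, Finset.sum_sub_distrib, Kss, bil_apply, traceK, levelNormal, grad_apply,
    gradSq_eq_gam, Finset.sum_div]
  have : ∀ i j, (∑ k, inverseField g x i k * pderiv k s x / √(gam g s s x)) *
      (∑ k, inverseField g x j k * pderiv k s x / √(gam g s s x)) * K x i j =
      K x i j * (∑ k, inverseField g x i k * pderiv k s x) *
        (∑ k, inverseField g x j k * pderiv k s x) / √(gam g s s x) ^ 2 := fun i j => by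
    rw [← Finset.sum_div, ← Finset.sum_div]; field_simp
  simp only [this]
  ring

/-- the barrier profile -/
def bf (κ ρ t : ℝ) : ℝ := -κ * √(ρ - t)

theorem hasDerivAt_bf (κ : ℝ) {ρ t : ℝ} (h : t < ρ) :
    HasDerivAt (bf κ ρ) (κ / (2 * √(ρ - t))) t := by
  have := (((hasDerivAt_id' t).const_sub ρ).sqrt (by linarith)).const_mul (-κ)
  refine this.congr_deriv ?_
  ring

theorem deriv2_bf {κ ρ t : ℝ} (_hκ : κ ≠ 0) (h : t < ρ) :
    deriv (deriv (bf κ ρ)) t = 2 * (κ / (2 * √(ρ - t))) ^ 3 / κ ^ 2 := by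
  have e : deriv (bf κ ρ) =ᶠ[𝓝 t] fun t => κ / (2 * √(ρ - t)) :=
    (gt_mem_nhds h).mono fun _ hu => (hasDerivAt_bf κ hu).deriv
  have hr : 0 < √(ρ - t) := Real.sqrt_pos.2 (by linarith)
  have := (hasDerivAt_const t κ).fun_div
    ((((hasDerivAt_id' t).const_sub ρ).sqrt (by linarith)).const_mul 2) (by positivity)
  rw [e.deriv_eq, this.deriv]
  field_simp
  ring

theorem contDiffAt_bf (κ : ℝ) {ρ t : ℝ} (h : t < ρ) : ContDiffAt ℝ ∞ (bf κ ρ) t :=
  contDiffAt_const.mul ((contDiffAt_const.sub contDiffAt_id).sqrt (by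
    simp only [id]; linarith))

theorem jd_bf (hg : IsRiemannianOn g univ) (hs : ContDiff ℝ ∞ s) (κ ρ : ℝ) :
    Jd g (fun _ => 1) (fun y => bf κ ρ (s y)) {y | s y < ρ} :=
  ⟨⟨isOpen_lt hs.continuous continuous_const, fun i j => (hg.contDiffOn i j).mono (subset_univ _),
    fun y _ => hg.posDef y trivial⟩, contDiffOn_const,
    fun _ hy => ((contDiffAt_bf κ hy).comp _ hs.contDiffAt).contDiffWithinAt, fun _ _ => one_pos⟩

/-- The Jang operator of the barrier. -/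
theorem Th_bf (hg : IsRiemannianOn g univ) (hs : ContDiff ℝ ∞ s) {κ ρ : ℝ} (hκ : 0 < κ)
    (hx : s x < ρ) : ∃ u : ℝ, 0 ≤ u ∧ u ≤ κ / (2 * √(ρ - s x)) ∧ u ^ 2 * gam g s s x ≤ 1 ∧
      (1 - u ^ 2 * gam g s s x) * (κ ^ 2 * gam g s s x) ≤ 4 * (ρ - s x) ∧
      pp g (fun _ => 1) (fun y => bf κ ρ (s y)) x = u ^ 2 * gam g s s x ∧
      ∀ K : MetricField n, Th g (fun _ => 1) (fun y => bf κ ρ (s y)) K x =
        u * laplaceBeltrami g s x - u ^ 3 * Hss g s x + 2 * u ^ 3 * gam g s s x / κ ^ 2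
          - traceK g K x + u ^ 2 * Kss g K s x := by
  have hd := jd_bf hg hs κ ρ
  have hxU : x ∈ {y | s y < ρ} := hx
  have hu : x ∈ (univ : Set (E n)) := trivial
  have hs2 : ContDiffAt ℝ 2 s x := hs.contDiffAt.of_le (by norm_cast)
  have hsd : DifferentiableAt ℝ s x := hs2.differentiableAt (by norm_num)
  have hb2 : ContDiffAt ℝ 2 (bf κ ρ) (s x) := (contDiffAt_bf κ hx).of_le (by norm_cast)
  have hbd := hasDerivAt_bf κ hx
  have hr : 0 < √(ρ - s x) := Real.sqrt_pos.2 (by linarith)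
  have hr2 : √(ρ - s x) ^ 2 = ρ - s x := Real.sq_sqrt (by linarith)
  set β := κ / (2 * √(ρ - s x)) with hβ
  have hβ0 : 0 < β := by positivity
  have ha := gam_self_nonneg hg hu s
  have hγ := hd.gm_pos hxU
  have hγ1 := hd.one_le_gm hxU
  have hsq : Id.sq g (fun _ => 1) (fun y => bf κ ρ (s y)) x = β ^ 2 * gam g s s x := by
    unfold Id.sq
    rw [gam_comp_left hbd.differentiableAt hsd, gam_comp_right hbd.differentiableAt hsd,
      hbd.deriv]
    ring
  have hγ2 := hd.gm_sq hxU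
  have hpp := hd.gm_sq_mul_pp hxU
  rw [hsq] at hγ2 hpp
  have hw : wv g (fun _ => 1) (fun y => bf κ ρ (s y)) x
      = (β / gm g (fun _ => 1) (fun y => bf κ ρ (s y)) x) • grad g s x := by
    rw [wv, grad_comp hbd.differentiableAt hsd, hbd.deriv, smul_smul]
    congr 1; ring
  have haa : aa g (fun _ => 1) (fun y => bf κ ρ (s y)) x = 0 := by
    have : lv (fun _ : E n => (1 : ℝ)) = fun _ => 0 := by funext y; simp [lv]
    simp [aa, this]
  have hT : ∀ K : MetricField n, Th g (fun _ => 1) (fun y => bf κ ρ (s y)) K x =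
      H0 g (fun _ => 1) (fun y => bf κ ρ (s y)) x
        - traceK (gb g (fun _ => 1) fun y => bf κ ρ (s y)) K x := fun K => traceK_sub _ _ _ _
  simp only [hT, hd.H0_eq hxU, haa, hd.traceK_gb hxU, ← lap_eq_traceK hg hu (hd.cf2 hxU),
    bil_hessM, hw, map_smul, smul_apply, smul_eq_mul, lap_comp hg hu hb2 hs2,
    hess_comp hb2 hs2, hbd.deriv, deriv2_bf hκ.ne' hx, ← hβ, ← gam_eq_fderiv_grad]
  generalize gm g (fun _ => 1) (fun y => bf κ ρ (s y)) x = γ at *
  generalize pp g (fun _ => 1) (fun y => bf κ ρ (s y)) x = p at *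
  have e1 : (β / γ) ^ 2 * gam g s s x = 1 - (γ ^ 2)⁻¹ := by
    field_simp; linarith
  refine ⟨β / γ, by positivity, div_le_self hβ0.le hγ1, ?_, ?_, ?_, fun K => ?_⟩
  · rw [e1]; have : 0 < (γ ^ 2)⁻¹ := by positivity
    linarith
  · have e2 : κ ^ 2 = 4 * (ρ - s x) * β ^ 2 := by
      rw [hβ, div_pow, mul_pow, hr2]
      have : ρ - s x ≠ 0 := by linarith
      field_simp; ring
    rw [e1, e2, sub_sub_cancel, inv_mul_le_iff₀ (by positivity), hγ2]
    nlinarith
  · field_simp; linarith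
  · have e3 : gam g s s x - (β / γ) ^ 2 * gam g s s x * gam g s s x = gam g s s x / γ ^ 2 := by
      rw [e1]; field_simp; ring
    simp only [Hss, Kss]
    have e4 : 2 * (β / γ) ^ 3 * gam g s s x / κ ^ 2
        = 1 / γ * (2 * β ^ 3 / κ ^ 2) * (gam g s s x / γ ^ 2) := by field_simp
    rw [e4, ← e3]
    field_simp
    ring

/-- adding `k g` to `K` -/
theorem Th_add (hg : IsRiemannianOn g univ) {f : E n → ℝ} {U : Set (E n)}
    (hd : Jd g (fun _ => 1) f U) (hx : x ∈ U) (k : E n → ℝ) :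
    Th g (fun _ => 1) f (fun y => K y + k y • g y) x =
      Th g (fun _ => 1) f K x - k x * (n - pp g (fun _ => 1) f x) := by
  have hT : ∀ K : MetricField n, Th g (fun _ => 1) f K x =
      H0 g (fun _ => 1) f x - traceK (gb g (fun _ => 1) f) K x := fun K => traceK_sub _ _ _ _
  have h1 : traceK g (fun y => k y • g y) x = k x * n := by
    rw [traceK_eq hg trivial, shp_smul, shp_self hg trivial, map_smul, trL_id, smul_eq_mul]
  rw [hT, hT, traceK_add, hd.traceK_gb hx (fun y => k y • g y), h1, bil_smul, hd.bil_wv_wv hx]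
  ring

theorem alg_aux {w ε D L H Q : ℝ} (hw0 : 0 ≤ w) (hw1 : w ≤ 1) (hε : 1 - w ^ 2 ≤ ε)
    (hL : |L| ≤ D) (hH : |H| ≤ D) (hQ : |Q| ≤ D) :
    w * L - w ^ 3 * H + w ^ 2 * Q ≤ L - H + Q + 4 * ε * D := by
  have hD : 0 ≤ D := (abs_nonneg _).trans hL
  have a0 : w ^ 2 ≤ w := by nlinarith
  have a1 : 0 ≤ 1 - w := by linarith
  have a2 : 1 - w ≤ ε := by linarith
  have a3 : 0 ≤ 1 - w ^ 3 := sub_nonneg.2 (pow_le_one₀ hw0 hw1)
  have a4 : 1 - w ^ 3 ≤ 2 * ε := by nlinarith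
  have a5 : 0 ≤ 1 - w ^ 2 := by linarith
  have key : ∀ {c e X : ℝ}, 0 ≤ c → c ≤ e → |X| ≤ D → |c * X| ≤ e * D := fun h1 h2 h3 => by
    rw [abs_mul, abs_of_nonneg h1]
    exact mul_le_mul h2 h3 (abs_nonneg _) (h1.trans h2)
  have b1 := (abs_le.1 (key a1 a2 hL)).1
  have b2 := (abs_le.1 (key a3 a4 hH)).2
  have b3 := (abs_le.1 (key a5 hε hQ)).1
  linarith

/-- the pointwise comparison with the expansion of the level set -/
theorem alg_bound {u r L H T Q κ D : ℝ} (hu : 0 ≤ u) (hr : 0 < r) (hκ : 0 < κ)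
    (h1 : u ^ 2 * r ^ 2 ≤ 1) (h2 : (1 - u ^ 2 * r ^ 2) * (κ ^ 2 * r ^ 2) ≤ 8)
    (hL : |L / r| ≤ D) (hH : |H / r ^ 3| ≤ D) (hQ : |Q / r ^ 2| ≤ D) (hD : r⁻¹ ≤ D) :
    u * L - u ^ 3 * H + 2 * u ^ 3 * r ^ 2 / κ ^ 2 - T + u ^ 2 * Q
      ≤ L / r - H / r ^ 3 - T + Q / r ^ 2 + (32 * D ^ 3 + 2 * D) / κ ^ 2 := by
  have hD0 : 0 < D := lt_of_lt_of_le (by positivity) hD
  obtain ⟨w, hw⟩ : ∃ w, w = u * r := ⟨_, rfl⟩
  have hw0 : 0 ≤ w := by rw [hw]; positivity
  have e : u ^ 2 * r ^ 2 = w ^ 2 := by rw [hw]; ring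
  rw [e] at h1 h2
  have hw1 : w ≤ 1 := by nlinarith
  have hε : 1 - w ^ 2 ≤ 8 * D ^ 2 / κ ^ 2 := by
    have h3 : 1 ≤ r * D := by rwa [inv_le_iff_one_le_mul₀' hr] at hD
    rw [le_div_iff₀ (by positivity)]
    have h4 : 0 ≤ (1 - w ^ 2) * κ ^ 2 := mul_nonneg (by linarith) (sq_nonneg _)
    have h5 : 1 ≤ (r * D) ^ 2 := one_le_pow₀ h3
    calc (1 - w ^ 2) * κ ^ 2 ≤ (1 - w ^ 2) * κ ^ 2 * (r * D) ^ 2 := le_mul_of_one_le_right h4 h5
      _ = (1 - w ^ 2) * (κ ^ 2 * r ^ 2) * D ^ 2 := by ring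
      _ ≤ _ := by gcongr
  have e1 : u * L - u ^ 3 * H + 2 * u ^ 3 * r ^ 2 / κ ^ 2 - T + u ^ 2 * Q
      = w * (L / r) - w ^ 3 * (H / r ^ 3) + 2 * (w ^ 3 * r⁻¹) / κ ^ 2 - T + w ^ 2 * (Q / r ^ 2) := by
    rw [hw]; field_simp
  have h6 : w ^ 3 * r⁻¹ ≤ D := (mul_le_of_le_one_left (by positivity) (pow_le_one₀ hw0 hw1)).trans hD
  have h7 : 2 * (w ^ 3 * r⁻¹) / κ ^ 2 ≤ 2 * D / κ ^ 2 := by gcongr
  have e2 : (32 * D ^ 3 + 2 * D) / κ ^ 2 = 4 * (8 * D ^ 2 / κ ^ 2) * D + 2 * D / κ ^ 2 := by ring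
  rw [e1, e2]
  have := alg_aux hw0 hw1 hε hL hH hQ
  linarith

theorem continuous_grad (hg : IsRiemannianOn g univ) (hs : ContDiff ℝ ∞ s) :
    ContDiff ℝ ∞ (grad g s) :=
  contDiff_iff_contDiffAt.2 fun _ => contDiffAt_grad hg trivial hs.contDiffAt (by simp) le_rfl

theorem continuous_Hss (hg : IsRiemannianOn g univ) (hs : ContDiff ℝ ∞ s) :
    Continuous (Hss g s) := by
  have : Hss g s = fun x => bil (hessM g s x) (grad g s x) (grad g s x) :=
    funext fun x => (bil_hessM _ _ _ _ _).symm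
  rw [this]
  exact continuous_iff_continuousAt.2 fun x => (contDiffAt_bil_apply
    (contDiffAt_hessM hg trivial hs.contDiffAt) (continuous_grad hg hs).contDiffAt
    (continuous_grad hg hs).contDiffAt).continuousAt

theorem continuous_Kss (hg : IsRiemannianOn g univ) (hs : ContDiff ℝ ∞ s)
    (hK : ∀ i j, ContDiff ℝ ∞ fun x => K x i j) : Continuous (Kss g K s) :=
  continuous_iff_continuousAt.2 fun _ => (contDiffAt_bil_apply
    (fun i j => (hK i j).contDiffAt) (continuous_grad hg hs).contDiffAt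
    (continuous_grad hg hs).contDiffAt).continuousAt

theorem continuous_traceK (hg : IsRiemannianOn g univ)
    (hK : ∀ i j, ContDiff ℝ ∞ fun x => K x i j) : Continuous (traceK g K) :=
  continuous_iff_continuousAt.2 fun _ =>
    (contDiffAt_traceK hg trivial le_rfl fun i j => (hK i j).contDiffAt).continuousAt

/-- steepness of the barrier at the boundary -/
theorem steep (hs : DifferentiableAt ℝ s x) (hd : fderiv ℝ s x ≠ 0) {κ : ℝ} (hκ : 0 < κ) (L : ℝ) :
    ∃ x', s x' < s x ∧ bf κ (s x) (s x') + L * ‖x' - x‖ < bf κ (s x) (s x) := by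
  obtain ⟨v, hv⟩ : ∃ v, fderiv ℝ s x v < 0 := by
    by_contra h
    push Not at h
    refine hd (ContinuousLinearMap.ext fun v => le_antisymm ?_ (h v))
    have := h (-v)
    rw [map_neg] at this
    simpa using this
  set a := -fderiv ℝ s x v with ha
  have ha0 : 0 < a := by linarith
  have h1 : HasDerivAt (fun τ : ℝ => s (x + τ • v)) (fderiv ℝ s x v) 0 := by
    have h2 : HasDerivAt (fun τ : ℝ => x + τ • v) v 0 := by
      simpa using ((hasDerivAt_id (0 : ℝ)).smul_const v).const_add x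
    have h3 : HasFDerivAt s (fderiv ℝ s x) (x + (0 : ℝ) • v) := by simpa using hs.hasFDerivAt
    exact h3.comp_hasDerivAt 0 h2
  have h4 := (hasDerivAt_iff_tendsto_slope_zero.1 h1).mono_left (nhdsGT_le_nhdsNE 0)
  have h5 := h4.eventually (gt_mem_nhds (show fderiv ℝ s x v < -(a / 2) by linarith))
  have h6 : ∀ᶠ τ in 𝓝[>] (0 : ℝ), (L * ‖v‖) ^ 2 * τ < κ ^ 2 * (a / 2) := by
    have : Tendsto (fun τ : ℝ => (L * ‖v‖) ^ 2 * τ) (𝓝 0) (𝓝 ((L * ‖v‖) ^ 2 * 0)) :=
      tendsto_id.const_mul _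
    exact (this.eventually (gt_mem_nhds (by rw [mul_zero]; positivity))).filter_mono
      nhdsWithin_le_nhds
  obtain ⟨τ, ⟨t1, t2⟩, hτ⟩ := ((h5.and h6).and self_mem_nhdsWithin).exists
  have hτ0 : 0 < τ := hτ
  simp only [zero_add, zero_smul, add_zero, smul_eq_mul] at t1
  rw [inv_mul_lt_iff₀ hτ0] at t1
  refine ⟨x + τ • v, by nlinarith, ?_⟩
  simp only [bf, sub_self, Real.sqrt_zero, mul_zero, add_sub_cancel_left, norm_smul,
    Real.norm_of_nonneg hτ0.le]
  have h7 : L * (τ * ‖v‖) < κ * √(s x - s (x + τ • v)) := by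
    refine lt_of_le_of_lt (le_abs_self _) (abs_lt_of_sq_lt_sq ?_ (by positivity))
    rw [mul_pow κ, Real.sq_sqrt (by nlinarith)]
    have : (L * (τ * ‖v‖)) ^ 2 = (L * ‖v‖) ^ 2 * τ * τ := by ring
    rw [this]
    have h8 := mul_lt_mul_of_pos_right t2 hτ0
    have h9 : κ ^ 2 * (a / 2 * τ) ≤ κ ^ 2 * (s x - s (x + τ • v)) := by gcongr; linarith
    linarith
  linarith

end Crest.Agent.N346.P1.St
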