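import Crest.Agent.N346.P1.SetupA
import Crest.Agent.N346.Id.Conf

/-! Row 346, P1-S (helper41), part B: weights, curvature bounds, modification of `K`. -/

set_option autoImplicit false

open Filter Topology Set
open scoped ContDiff
open Crest.GeometryTopology.CoordMetric Crest.MathPhysics.ExteriorData
open Crest.Agent.R202.Tens Crest.Agent.R247.Bo84 Crest.Agent.N346.Id

noncomputable section

namespace Crest.Agent.N346.P1.St

variable {n : ℕ} {m A Q : ℝ} {g K : MetricField n} {EE : VectorField n} {ψ s : E n → ℝ}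
  {R0 C c0 e0 θ0 r1 : ℝ} {x : E n}

theorem wt_le {r k : ℝ} (hr : 0 ≤ r) (hk : 0 ≤ k) : (1 + r) ^ (-k) ≤ (1 + r ^ 2) ^ (-k / 2) := by
  have h := Real.rpow_le_rpow_of_nonpos (show 0 < 1 + r ^ 2 by positivity)
    (show 1 + r ^ 2 ≤ (1 + r) ^ 2 by nlinarith) (show -k / 2 ≤ 0 by linarith)
  rwa [← Real.rpow_natCast (1 + r), ← Real.rpow_mul (by positivity),
    show ((2 : ℕ) : ℝ) * (-k / 2) = -k by push_cast; ring] at h

theorem le_wt {r k : ℝ} (hr : 0 ≤ r) (hk : 0 ≤ k) :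
    (2 : ℝ) ^ (-k / 2) * (1 + r ^ 2) ^ (-k / 2) ≤ (1 + r) ^ (-k) := by
  have h := Real.rpow_le_rpow_of_nonpos (show 0 < (1 + r) ^ 2 by positivity)
    (show (1 + r) ^ 2 ≤ 2 * (1 + r ^ 2) by nlinarith [sq_nonneg (r - 1)])
    (show -k / 2 ≤ 0 by linarith)
  rwa [← Real.rpow_natCast (1 + r), ← Real.rpow_mul (by positivity),
    show ((2 : ℕ) : ℝ) * (-k / 2) = -k by push_cast; ring,
    Real.mul_rpow (by positivity) (by positivity)] at h

theorem wt_anti {r R k : ℝ} (hr : 0 ≤ r) (h : r ≤ R) (hk : k ≤ 0) :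
    (1 + R ^ 2) ^ k ≤ (1 + r ^ 2) ^ k :=
  Real.rpow_le_rpow_of_nonpos (by positivity) (by gcongr) hk

theorem contDiff_ricci (hg : IsRiemannianOn g univ) (i j : Fin n) :
    ContDiff ℝ ∞ fun x => ricci g x i j := by
  have h1 : ∀ k i j, ContDiff ℝ ∞ fun x => christoffel g x k i j := fun k i j =>
    contDiff_const.mul (ContDiff.sum fun l _ => (Bs.contDiff_inv hg k l).mul
      (((Bs.contDiff_pd (Bs.contDiff_g hg j l) i).add (Bs.contDiff_pd (Bs.contDiff_g hg i l) j)).sub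
        (Bs.contDiff_pd (Bs.contDiff_g hg i j) l)))
  exact (((ContDiff.sum fun k _ => Bs.contDiff_pd (h1 k i j) k).sub
    (Bs.contDiff_pd (ContDiff.sum fun k _ => h1 k k i) j)).add
    (ContDiff.sum fun k _ => ContDiff.sum fun l _ => (h1 k k l).mul (h1 l i j))).sub
    (ContDiff.sum fun k _ => ContDiff.sum fun l _ => (h1 k j l).mul (h1 l k i))

theorem continuous_bil2 {M : MetricField n} (h : ∀ i j, Continuous fun x => M x i j) :
    Continuous fun p : E n × E n => bil (M p.1) p.2 p.2 := by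
  simp only [bil_apply]
  exact continuous_finsetSum _ fun i _ => continuous_finsetSum _ fun j _ =>
    (((h i j).comp continuous_fst).mul (by fun_prop)).mul (by fun_prop)

/-- Adding `k g` to `K`, with `k ≥ 0` vanishing on `1 ≤ s`, and enlarging `R0`. -/
theorem good_add (h : Good n m A Q g K EE ψ s R0 C c0 e0 θ0 r1) {k : E n → ℝ}
    (hk : ContDiff ℝ ∞ k) (hk0 : ∀ x, 0 ≤ k x) (hk1 : ∀ x, 1 ≤ s x → k x = 0) {R : ℝ}
    (hR : R0 ≤ R) : Good n m A Q g (fun y => K y + k y • g y) EE ψ s R C c0 e0 θ0 r1 := by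
  have hg := h.riem
  have e : ∀ x, 1 ≤ s x → K x + k x • g x = K x := fun x hx => by rw [hk1 x hx, zero_smul, add_zero]
  have hd : ∀ x, 1 ≤ s x → ∀ i, pderiv i k x = 0 := fun x hx i => by
    have : IsLocalMin k x := .of_forall fun y => (hk1 x hx).le.trans (hk0 y)
    simp [pderiv, this.fderiv_eq_zero]
  refine { h with
    R0_ge := h.R0_ge.trans hR
    K_smooth := fun i j => (h.K_smooth i j).add (hk.mul (Bs.contDiff_g hg i j))
    K_symm := fun x i j => ?_
    K_far := fun x hx => ?_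
    g_far := fun x hx => h.g_far x (hR.trans hx)
    s_far := fun x hx => h.s_far x (hR.trans hx)
    dec := fun x hx w hw => ?_
    trap := fun x hx hx' => ?_ }
  · simp only [Matrix.add_apply, Matrix.smul_apply, h.K_symm x i j, Bs.riem_symm hg x i j]
  · rw [e x (by linarith [h.s_far x (hR.trans hx)]), h.K_far x (hR.trans hx)]
  · have h1 : energyDensity g (fun y => K y + k y • g y) x = energyDensity g K x := by
      simp only [energyDensity, traceK, normSqK, e x hx]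
    have h2 : ∀ l i j, pderiv l (fun y => (K y + k y • g y) i j) x
        = pderiv l (fun y => K y i j) x := fun l i j => by
      simp only [Matrix.add_apply, Matrix.smul_apply, smul_eq_mul]
      rw [Bs.pd_add (Bs.smooth_diff (h.K_smooth i j) x)
        (Bs.smooth_diff (hk.mul (Bs.contDiff_g hg i j)) x),
        Bs.pd_mul (Bs.smooth_diff hk x) (Bs.smooth_diff (Bs.contDiff_g hg i j) x), hd x hx,
        hk1 x hx]
      simp
    have h3 : traceK g (fun y => K y + k y • g y) = fun y => traceK g K y + k y * n := by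
      funext y
      rw [traceK_add, traceK_eq hg trivial (fun y => k y • g y), shp_smul, shp_self hg trivial,
        map_smul, trL_id, smul_eq_mul]
    have h4 : ∀ i, momentumDensity g (fun y => K y + k y • g y) x i
        = momentumDensity g K x i := fun i => by
      have hT : DifferentiableAt ℝ (traceK g K) x := (contDiffAt_traceK hg trivial le_rfl
        fun i j => (h.K_smooth i j).contDiffAt).differentiableAt (by simp)
      simp only [momentumDensity, covDerivK, h2, e x hx, h3]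
      rw [Bs.pd_add hT ((Bs.smooth_diff hk x).mul_const _), Bs.pd_mul_const, hd x hx]
      simp
    simp only [h1, h4]
    exact h.dec x hx w hw
  · have := h.trap x hx hx'
    simp only [levelExp, e x hx] at this ⊢
    exact this

theorem norm_sq_le (h : Good n m A Q g K EE ψ s R0 C c0 e0 θ0 r1) {w : E n}
    (hw : quadForm g x w ≤ 1) : ‖w‖ ^ 2 ≤ C := by
  have hC : 0 < C := by linarith [h.C_ge]
  have := (h.g_lo x w).trans hw
  rwa [inv_mul_le_iff₀ hC, mul_one] at this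

theorem curv_far (hn : 3 ≤ n) (h : Good n m A Q g K EE ψ s R0 C c0 e0 θ0 r1) :
    ∃ D : ℝ, 0 ≤ D ∧ ∀ x w : E n, R0 < ‖x‖ → quadForm g x w ≤ 1 →
      |scalarCurv g x| + 2 * |bil (ricM g x) w w| ≤ D * (1 + ‖x‖) ^ (-(n : ℝ)) := by
  have hN : (3 : ℝ) ≤ n := by exact_mod_cast hn
  have hC := h.C_ge
  have hc : Conf (fun _ => 1) g ψ {y | R0 < ‖y‖} :=
    ⟨⟨isOpen_lt continuous_const continuous_norm, fun _ _ => contDiffOn_const,
      fun _ _ => Matrix.PosDef.one⟩, h.ψ_smooth.contDiffOn, fun y hy => h.g_far y (le_of_lt hy)⟩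
  refine ⟨Real.exp (2 * C) * (2 * n * C + n * n * C ^ 2)
    + 2 * (n * (C * C + C ^ 2 * C) + (C + n * C ^ 2) * C), by positivity, fun x w hx hw => ?_⟩
  have hχ : ∀ l i j, christoffel (fun _ : E n => (1 : Matrix (Fin n) (Fin n) ℝ)) x l i j = 0 :=
    fun l i j => by simp [christoffel]
  have hχ' : ∀ (y : E n) l i j,
      christoffel (fun _ : E n => (1 : Matrix (Fin n) (Fin n) ℝ)) y l i j = 0 :=
    fun y l i j => by simp [christoffel]
  have f1 : ricM (fun _ : E n => (1 : Matrix (Fin n) (Fin n) ℝ)) x = 0 := by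
    ext i j; simp [ricM, ricci, hχ']
  have f2 : scalarCurv (fun _ : E n => (1 : Matrix (Fin n) (Fin n) ℝ)) x = 0 := by
    simp [scalarCurv, ricci, hχ']
  have f3 : hess (fun _ : E n => (1 : Matrix (Fin n) (Fin n) ℝ)) ψ x w w
      = iteratedFDeriv ℝ 2 ψ x ![w, w] := by
    have : Gam (fun _ : E n => (1 : Matrix (Fin n) (Fin n) ℝ)) x w w = 0 := by
      ext k; simp [Gam_apply, hχ]
    rw [hess_apply, this, map_zero, sub_zero, iteratedFDeriv_two_apply]
    rfl
  have f4 : laplaceBeltrami (fun _ : E n => (1 : Matrix (Fin n) (Fin n) ℝ)) ψ x = lap ψ x := by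
    simp [laplaceBeltrami, inverseField, Matrix.one_apply, lap]
  have f5 : gam (fun _ : E n => (1 : Matrix (Fin n) (Fin n) ℝ)) ψ ψ x = ‖fderiv ℝ ψ x‖ ^ 2 := by
    rw [← Bs.sum_pd_sq]
    simp [gam, inverseField, Matrix.one_apply]
  have f6 : bil (1 : Matrix (Fin n) (Fin n) ℝ) w w = ‖w‖ ^ 2 := by
    rw [Bs.norm_sq_eq]
    simp [bil_apply, Matrix.one_apply]
  have hr : 1 ≤ 1 + ‖x‖ := by linarith [norm_nonneg x]
  set σ := (1 + ‖x‖) ^ (-(n : ℝ)) with hσ
  have hσ0 : 0 ≤ σ := by positivity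
  have hw2 := norm_sq_le h hw
  have b0 : Real.exp (-(2 * ψ x)) ≤ Real.exp (2 * C) := by
    have h1 := h.ψ_decay 0 (by norm_num) x
    rw [norm_iteratedFDeriv_zero, Real.norm_eq_abs] at h1
    have h2 : (1 + ‖x‖) ^ (2 - (n : ℝ) - ((0 : ℕ) : ℝ)) ≤ 1 :=
      Real.rpow_le_one_of_one_le_of_nonpos hr (by push_cast; linarith)
    have h3 := (abs_le.1 (h1.trans (mul_le_of_le_one_right (by linarith) h2))).1
    exact Real.exp_le_exp.2 (by linarith)
  have b1 : |lap ψ x| ≤ C * σ := (h.ψ_lap x).trans (by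
    gcongr
    exact Real.rpow_le_rpow_of_exponent_le hr (by linarith [h.e0_pos]))
  have b2 : ‖fderiv ℝ ψ x‖ ^ 2 ≤ C ^ 2 * σ := by
    have h1 := h.ψ_decay 1 (by norm_num) x
    rw [norm_iteratedFDeriv_one] at h1
    refine (pow_le_pow_left₀ (norm_nonneg _) h1 2).trans ?_
    rw [mul_pow, ← Real.rpow_natCast (_ ^ _), ← Real.rpow_mul (by linarith)]
    gcongr
    exact Real.rpow_le_rpow_of_exponent_le hr (by push_cast; linarith)
  have b3 : |iteratedFDeriv ℝ 2 ψ x ![w, w]| ≤ C * C * σ := by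
    have h1 := h.ψ_decay 2 le_rfl x
    rw [show 2 - (n : ℝ) - ((2 : ℕ) : ℝ) = -n by push_cast; ring] at h1
    have h2 := (iteratedFDeriv ℝ 2 ψ x).le_opNorm ![w, w]
    simp only [Fin.prod_univ_two, Matrix.cons_val_zero, Matrix.cons_val_one, ← _root_.sq,
      Real.norm_eq_abs] at h2
    calc _ ≤ _ := h2
      _ ≤ C * σ * C := by gcongr
      _ = _ := by ring
  have b4 : |fderiv ℝ ψ x w * fderiv ℝ ψ x w| ≤ C ^ 2 * C * σ := by
    rw [← _root_.sq, abs_pow]
    calc |fderiv ℝ ψ x w| ^ 2 ≤ (‖fderiv ℝ ψ x‖ * ‖w‖) ^ 2 := by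
          gcongr; exact (fderiv ℝ ψ x).le_opNorm w
      _ = ‖fderiv ℝ ψ x‖ ^ 2 * ‖w‖ ^ 2 := by ring
      _ ≤ C ^ 2 * σ * C := by gcongr
      _ = _ := by ring
  have hxU : x ∈ {y : E n | R0 < ‖y‖} := hx
  rw [hc.scalar_eq hxU, hc.ric_eq hxU, f1, f2, f3, f4, f5, f6]
  have hG := sq_nonneg ‖fderiv ℝ ψ x‖
  generalize ‖fderiv ℝ ψ x‖ ^ 2 = G at *
  have c1 : |Real.exp (-(2 * ψ x)) * (0 - 2 * (n - 1) * lap ψ x - (n - 1) * (n - 2) * G)|
      ≤ Real.exp (2 * C) * (2 * n * C + n * n * C ^ 2) * σ := by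
    rw [abs_mul, abs_of_pos (Real.exp_pos _), mul_assoc (Real.exp (2 * C))]
    refine mul_le_mul b0 ((abs_sub _ _).trans ?_) (abs_nonneg _) (Real.exp_pos _).le
    rw [zero_sub, abs_neg, abs_mul, abs_mul ((n - 1 : ℝ) * _), abs_of_nonneg hG,
      abs_of_nonneg (by linarith : (0 : ℝ) ≤ 2 * (n - 1)),
      abs_of_nonneg (mul_nonneg (by linarith) (by linarith) : (0 : ℝ) ≤ (n - 1) * (n - 2)), add_mul,
      mul_assoc _ C σ, mul_assoc _ (C ^ 2) σ]
    gcongr <;> linarith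
  have c2 : |bil (0 : Matrix (Fin n) (Fin n) ℝ) w w - (n - 2) * (iteratedFDeriv ℝ 2 ψ x ![w, w]
      - fderiv ℝ ψ x w * fderiv ℝ ψ x w) - (lap ψ x + (n - 2) * G) * ‖w‖ ^ 2|
      ≤ (n * (C * C + C ^ 2 * C) + (C + n * C ^ 2) * C) * σ := by
    have z : bil (0 : Matrix (Fin n) (Fin n) ℝ) w w = 0 := by simp [bil_apply]
    refine (abs_sub _ _).trans ?_
    rw [z, zero_sub, abs_neg, abs_mul, abs_mul, abs_of_nonneg (by linarith : (0 : ℝ) ≤ n - 2),
      abs_of_nonneg (sq_nonneg ‖w‖)]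
    have d1 := (abs_sub _ _).trans (add_le_add b3 b4)
    have d2 : |lap ψ x + (n - 2) * G| ≤ C * σ + n * (C ^ 2 * σ) := by
      refine (abs_add_le _ _).trans (add_le_add b1 ?_)
      rw [abs_of_nonneg (mul_nonneg (by linarith) hG)]
      gcongr; linarith
    calc _ ≤ n * (C * C * σ + C ^ 2 * C * σ) + (C * σ + n * (C ^ 2 * σ)) * C := by
          gcongr; linarith
      _ = _ := by ring
  linarith

theorem exists_C0 (hn : 3 ≤ n) (h : Good n m A Q g K EE ψ s R0 C c0 e0 θ0 r1) :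
    ∃ C0 : ℝ, ∀ x w, quadForm g x w ≤ 1 → |scalarCurv g x| + 2 * |bil (ricM g x) w w|
      + ((n : ℝ) - 1) * (traceK g K x - bil (K x) w w) ^ 2
        ≤ C0 * (1 + ‖x‖ ^ 2) ^ (-(n : ℝ) / 2) := by
  obtain ⟨D, hD, hf⟩ := curv_far hn h
  have hg := h.riem
  have hric : ∀ i j, ContDiff ℝ ∞ fun x => ricM g x i j := contDiff_ricci hg
  have hcont : Continuous fun p : E n × E n => |scalarCurv g p.1| + 2 * |bil (ricM g p.1) p.2 p.2|
      + ((n : ℝ) - 1) * (traceK g K p.1 - bil (K p.1) p.2 p.2) ^ 2 :=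
    (((continuous_traceK hg hric).comp continuous_fst).abs.add (continuous_const.mul
      (continuous_bil2 fun i j => (hric i j).continuous).abs)).add (continuous_const.mul
      ((((continuous_traceK hg h.K_smooth).comp continuous_fst).sub
        (continuous_bil2 fun i j => (h.K_smooth i j).continuous)).pow 2))
  obtain ⟨B, hB⟩ := ((isCompact_closedBall (0 : E n) R0).prod
    (isCompact_closedBall (0 : E n) C)).exists_bound_of_continuousOn hcont.continuousOn
  have hn0 : -(n : ℝ) / 2 ≤ 0 := by have : (0 : ℝ) ≤ n := n.cast_nonneg; linarith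
  have hpos : 0 < (1 + R0 ^ 2) ^ (-(n : ℝ) / 2) := by positivity
  refine ⟨max D (|B| / (1 + R0 ^ 2) ^ (-(n : ℝ) / 2)), fun x w hw => ?_⟩
  rcases lt_or_ge R0 ‖x‖ with hx | hx
  · have z : traceK g K x - bil (K x) w w = 0 := by
      simp [traceK, h.K_far x hx.le, bil_apply]
    rw [z, zero_pow two_ne_zero, mul_zero, add_zero]
    exact (hf x w hx hw).trans (mul_le_mul (le_max_left _ _)
      (wt_le (norm_nonneg x) n.cast_nonneg) (by positivity) (hD.trans (le_max_left _ _)))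
  · have hw2 := norm_sq_le h hw
    have hw1 : ‖w‖ ≤ C := by nlinarith [h.C_ge, norm_nonneg w]
    have := (le_abs_self _).trans ((hB (x, w) ⟨mem_closedBall_zero_iff.2 hx,
      mem_closedBall_zero_iff.2 hw1⟩).trans (le_abs_self B))
    calc _ ≤ |B| := this
      _ = |B| / (1 + R0 ^ 2) ^ (-(n : ℝ) / 2) * (1 + R0 ^ 2) ^ (-(n : ℝ) / 2) := by field_simp
      _ ≤ _ := mul_le_mul (le_max_right _ _) (wt_anti (norm_nonneg x) hx hn0) hpos.le
          (hD.trans (le_max_left _ _))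

theorem exists_E_far (h : Good n m A Q g K EE ψ s R0 C c0 e0 θ0 r1) {c1 : ℝ} (hc : 0 < c1) :
    ∃ R : ℝ, ∀ x : E n, R ≤ ‖x‖ →
      2 * eSq g EE x ≤ c1 * (1 + ‖x‖ ^ 2) ^ (-((n : ℝ) + e0) / 2) := by
  have hC : 0 < C := by linarith [h.C_ge]
  have he := h.e0_lt
  have he0 := h.e0_pos
  have ht := (tendsto_rpow_neg_atTop (show 0 < (n : ℝ) - 2 - e0 by linarith)).comp
    (tendsto_atTop_add_const_left atTop 1 tendsto_id)
  set D := 2 * (C * (n * C ^ 2)) * C ^ n + 1 with hD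
  have hD0 : 0 < D := by positivity
  obtain ⟨R, hR⟩ := eventually_atTop.1 (ht.eventually (gt_mem_nhds (div_pos hc hD0)))
  refine ⟨R, fun x hx => ?_⟩
  have h1 : (1 + ‖x‖) ^ (-((n : ℝ) - 2 - e0)) < c1 / D := hR _ hx
  have hr : 0 < 1 + ‖x‖ := by positivity
  have h2 : vecNormSq g EE x ≤ C * (n * (C * (1 + ‖x‖) ^ (1 - (n : ℝ))) ^ 2) := by
    refine (h.g_hi x (WithLp.toLp 2 (EE x))).trans ?_
    gcongr
    rw [EuclideanSpace.real_norm_sq_eq]
    refine (Finset.sum_le_card_nsmul _ _ _ fun i _ => ?_).trans (by simp; rfl)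
    rw [← sq_abs]
    exact pow_le_pow_left₀ (abs_nonneg _) (h.EE_decay x i) 2
  have h3 : (C ^ n)⁻¹ ≤ (g x).det := by
    rw [← inv_pow]; exact Bs.le_det h.riem (inv_pos.2 hC).le (h.g_lo x)
  have h4 : eSq g EE x ≤ C * (n * (C * (1 + ‖x‖) ^ (1 - (n : ℝ))) ^ 2) * C ^ n := by
    rw [eSq]
    refine (div_le_div₀ (by positivity) h2 (by positivity) h3).trans (le_of_eq ?_)
    rw [div_inv_eq_mul]
  have h5 : ((1 + ‖x‖) ^ (1 - (n : ℝ))) ^ 2
      = (1 + ‖x‖) ^ (-((n : ℝ) - 2 - e0)) * (1 + ‖x‖) ^ (-((n : ℝ) + e0)) := by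
    rw [← Real.rpow_natCast, ← Real.rpow_mul hr.le, ← Real.rpow_add hr]
    congr 1; push_cast; ring
  have h6 := wt_le (norm_nonneg x) (show 0 ≤ (n : ℝ) + e0 by positivity)
  rw [mul_pow, h5] at h4
  rw [lt_div_iff₀ hD0] at h1
  have h7 : 0 ≤ (1 + ‖x‖) ^ (-((n : ℝ) + e0)) := by positivity
  have h8 : 0 ≤ (1 + ‖x‖) ^ (-((n : ℝ) - 2 - e0)) := by positivity
  calc 2 * eSq g EE x ≤ ((1 + ‖x‖) ^ (-((n : ℝ) - 2 - e0)) * (D - 1)) *
        (1 + ‖x‖) ^ (-((n : ℝ) + e0)) := by rw [hD]; linarith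
    _ ≤ c1 * (1 + ‖x‖) ^ (-((n : ℝ) + e0)) := by gcongr; linarith
    _ ≤ _ := by gcongr

end Crest.Agent.N346.P1.St
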